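import Vale.Agent.P188.H.Defs

/-! Part H: basic facts. -/

namespace Vale.Agent.P188.Geo
open scoped InnerProductSpace Pointwise
open MeasureTheory Filter Topology
variable (M : Geo)

theorem hc_ah_ab (x : M.G) : M.ah x ∈ M.ab := M.ab.starProjection_apply_mem x

theorem hcv_ab (i) : M.hcv i ∈ M.ab := M.hc_ah_ab _

theorem hcv_u0 (i) : M.hcv i ∈ M.u0 := M.ah_mem_u0 _

theorem ah_hcv (i) : M.ah (M.hcv i) = M.hcv i := M.ah_ah _

theorem hc_norm_ah (x : M.G) : ‖M.ah x‖ ≤ ‖x‖ := M.ab.norm_starProjection_apply_le x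

theorem norm_hcv (i) : ‖M.hcv i‖ ≤ 1 := (M.hc_norm_ah _).trans (M.len_norm_X i).le

theorem hc_ah_of_ab {v : M.G} (hv : v ∈ M.ab) : M.ah v = v :=
  Submodule.starProjection_eq_self_iff.2 hv

theorem hc_ah_inv (x : M.G) : M.ah x⁻¹ = -M.ah x := by
  have h := M.ah_mul x⁻¹ x
  rw [inv_mul_cancel, M.one_def, map_zero] at h
  exact eq_neg_of_add_eq_zero_left h.symm

theorem hc_abs_co (i) (v : M.G) : |M.co i v| ≤ ‖v‖ :=
  PiLp.norm_apply_le (show EuclideanSpace ℝ (Fin M.d) from v) i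

theorem hc_sum_hcv (v : M.G) : ∑ i, M.co i v • M.hcv i = M.ah v := by
  conv_rhs => rw [← M.sum_co v]
  simp only [map_sum, map_smul, hcv]

theorem hc_ln_smul {c : M.G} (hc : c ∈ M.u0) (h1 : ‖c‖ ≤ 1) (t : ℝ) : M.ln (t • c) ≤ |t| + 1 := by
  refine (M.ln_tame (Or.inr (M.u0.smul_mem t hc))).trans ?_
  rw [norm_smul, Real.norm_eq_abs]
  nlinarith [abs_nonneg t]

theorem hc_norm_A : ∃ C : ℝ, 1 ≤ C ∧ ∀ x, ‖M.A x‖ ≤ C * ‖x‖ := by
  refine ⟨1 + ‖LinearMap.toContinuousLinearMap M.A‖, by simp, fun x => ?_⟩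
  have := (LinearMap.toContinuousLinearMap M.A).le_opNorm x
  rw [LinearMap.coe_toContinuousLinearMap'] at this
  nlinarith [norm_nonneg x]

theorem hCL.nonneg {D f} (h : M.hCL D f) : 0 ≤ D := by
  have := h.2 1 1
  rw [M.ln_one] at this
  linarith [norm_nonneg (f (1 * 1) - f 1)]

theorem hLM.nonneg {D L} (h : M.hLM D L) : 0 ≤ D := (norm_nonneg _).trans (h.2 1)

theorem hLN_apply (f N x v) : M.hLN f N x v = ∑ i, M.co i v • M.hDq f N i x := by
  simp [hLN]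

theorem hc_LN_norm (a : Fin M.d → M.G) :
    ‖∑ i, (LinearMap.toContinuousLinearMap (M.co i)).smulRight (a i)‖ ≤ ∑ i, ‖a i‖ := by
  refine ContinuousLinearMap.opNorm_le_bound _ (by positivity) fun v => ?_
  rw [sum_apply, Finset.sum_mul]
  refine norm_sum_le_of_le _ fun i _ => ?_
  rw [ContinuousLinearMap.smulRight_apply, norm_smul, mul_comm]
  exact mul_le_mul_of_nonneg_left (M.hc_abs_co i v) (norm_nonneg _)

theorem hLN_sub_le (f N x y) :
    ‖M.hLN f N x - M.hLN f N y‖ ≤ ∑ i, ‖M.hDq f N i x - M.hDq f N i y‖ := by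
  refine le_of_eq_of_le (congrArg _ ?_) (M.hc_LN_norm _)
  ext v : 1
  simp [hLN, smul_sub]

theorem hLN_LM {D f} (h : M.hCL D f) {N : ℝ} (hN : 1 ≤ N) : M.hLM (3 * M.d * D) (M.hLN f N) := by
  have hD := h.nonneg
  refine ⟨?_, fun x => (M.hc_LN_norm _).trans ?_⟩
  · refine Finset.measurable_sum _ fun i _ => ?_
    have h1 : Continuous fun a : M.G => (LinearMap.toContinuousLinearMap (M.co i)).smulRight a :=
      (ContinuousLinearMap.smulRightL ℝ M.G M.G (LinearMap.toContinuousLinearMap (M.co i))).continuous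
    exact h1.measurable.comp (((h.1.comp (measurable_mul_const _)).sub h.1).const_smul N⁻¹)
  · have h2 : ∀ i ∈ Finset.univ, ‖M.hDq f N i x‖ ≤ 3 * D := fun i _ => by
      have h3 := h.2 x (N • M.hcv i)
      have h4 := M.hc_ln_smul (M.hcv_u0 i) (M.norm_hcv i) N
      rw [abs_of_pos (by linarith)] at h4
      rw [hDq, norm_smul, Real.norm_of_nonneg (by positivity), inv_mul_le_iff₀ (by linarith)]
      nlinarith
    refine (Finset.sum_le_card_nsmul _ _ _ h2).trans (le_of_eq ?_)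
    simp only [Finset.card_univ, Fintype.card_fin, nsmul_eq_mul]
    ring

theorem hLN_ab (φ : M.G → M.G) (N x v) : M.hLN (fun y => M.ah (φ y)) N x v ∈ M.ab := by
  rw [hLN_apply]
  exact M.ab.sum_mem fun i _ => M.ab.smul_mem _
    (M.ab.smul_mem _ (M.ab.sub_mem (M.hc_ah_ab _) (M.hc_ah_ab _)))

theorem hCL_ah (K C : ℝ) : ∃ D : ℝ, 1 ≤ D ∧ ∀ φ, M.MQI K C φ → M.hCL D (fun y => M.ah (φ y)) := by
  obtain ⟨D, hD, h⟩ := M.A_lip K C
  exact ⟨D, hD, fun φ hφ => ⟨M.ah.continuous.measurable.comp hφ.1, fun x b => (h φ hφ.2 x b).2⟩⟩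

theorem hErr_meas {f L} (hf : Measurable f) (hL : Measurable L) :
    Measurable (fun p : M.G × M.G => M.hErr f L p.1 p.2) :=
  ((hf.comp (measurable_fst.mul measurable_snd)).sub (hf.comp measurable_fst)).sub
    (ContinuousLinearMap.measurable_apply₂.comp
      ((hL.comp measurable_fst).prodMk (M.ah.continuous.measurable.comp measurable_snd)))

theorem hErr_le (D D' : ℝ) : ∃ C : ℝ, 1 ≤ C ∧ ∀ f L, M.hCL D f → M.hLM D' L → ∀ x g,
    ‖M.hErr f L x g‖ ≤ C * (M.ln g + 1) := by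
  obtain ⟨C, hC, h⟩ := M.norm_ah_le
  refine ⟨1 + |D| + |D'| * C, by nlinarith [abs_nonneg D, abs_nonneg D'], fun f L hf hL x g => ?_⟩
  rw [abs_of_nonneg hf.nonneg, abs_of_nonneg hL.nonneg]
  have h1 := hf.2 x g
  have h2 := ((L x).le_opNorm (M.ah g)).trans
    (mul_le_mul (hL.2 x) (h g).1 (norm_nonneg _) hL.nonneg)
  have h3 := norm_sub_le (f (x * g) - f x) (L x (M.ah g))
  have h4 := M.ln_nonneg g
  have h5 : 0 ≤ D' * C := mul_nonneg hL.nonneg (by linarith)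
  rw [hErr]
  nlinarith

theorem hc_meas_Q : MeasurableSet M.Q := Metric.isClosed_closedBall.measurableSet

theorem hc_vol_Q : volume M.Q ≠ 0 ∧ volume M.Q ≠ ⊤ :=
  ⟨(Metric.measure_closedBall_pos volume (0 : M.G) one_pos).ne',
    (isCompact_closedBall (0 : M.G) 1).measure_lt_top.ne⟩

theorem hc_ln_Q {b : M.G} (hb : b ∈ M.Q) : M.ln b ≤ 1 :=
  M.ln_le_one (mem_closedBall_zero_iff.1 hb)

theorem hc_Bl (R : ℝ) : MeasurableSet (M.hBl R) ∧ volume (M.hBl R) ≠ ⊤ :=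
  ⟨(M.isCompact_ball R).isClosed.measurableSet, (M.isCompact_ball R).measure_lt_top.ne⟩

theorem hc_bd_mono {R R' : ℝ} (h : R ≤ R') (S : Set M.G) : M.bd R S ⊆ M.bd R' S :=
  fun _ ⟨⟨b, h1, h2⟩, ⟨b', h3, h4⟩⟩ => ⟨⟨b, h1.trans h, h2⟩, ⟨b', h3.trans h, h4⟩⟩

theorem hc_mul_subset {R : ℝ} (S : Set M.G) {T : Set M.G} (hT : T ⊆ M.hBl R) :
    S * T ⊆ S ∪ M.bd R S := by
  rintro _ ⟨s, hs, t, ht, rfl⟩
  have h1 : M.ln t ≤ R := hT ht
  by_cases h : s * t ∈ S
  · exact Or.inl h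
  · refine Or.inr ⟨⟨t⁻¹, by rwa [M.ln_inv], by simpa using hs⟩, 1, ?_, by simpa using h⟩
    rw [M.ln_one]
    exact (M.ln_nonneg t).trans h1

theorem hc_core (R : ℝ) {S : Set M.G} (hS : MeasurableSet S) : ∃ T, MeasurableSet T ∧ T ⊆ S ∧
    volume (S \ T) ≤ volume (M.bd R S) ∧ ∀ x ∈ T, ∀ b, M.ln b ≤ R → x * b ∈ S := by
  refine ⟨S \ toMeasurable volume (M.bd R S), hS.diff (measurableSet_toMeasurable _ _),
    Set.sdiff_subset, ?_, fun x hx b hb => ?_⟩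
  · rw [← measure_toMeasurable (M.bd R S)]
    refine measure_mono fun x hx => ?_
    by_contra h
    exact hx.2 ⟨hx.1, h⟩
  · by_contra h
    refine hx.2 (subset_toMeasurable _ _ ⟨⟨1, ?_, by simpa using hx.1⟩, b, hb, h⟩)
    rw [M.ln_one]
    exact (M.ln_nonneg b).trans hb

theorem hc_markov {E : Type} [NormedAddCommGroup E] [MeasurableSpace E] [OpensMeasurableSpace E]
    {F : M.G → E} (hF : Measurable F) {S : Set M.G} {ε a : ℝ} (ha : 0 < a)
    (h : ∫⁻ x in S, ‖F x‖ₑ ≤ ENNReal.ofReal ε * volume S) (hS : MeasurableSet S) :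
    volume (S ∩ {x | a ≤ ‖F x‖}) ≤ ENNReal.ofReal (ε / a) * volume S := by
  have h1 := meas_ge_le_lintegral_div (μ := volume.restrict S) hF.enorm.aemeasurable
    (ε := ENNReal.ofReal a) (by simpa using ha) ENNReal.ofReal_ne_top
  rw [Measure.restrict_apply' hS, Set.inter_comm] at h1
  refine le_trans (measure_mono fun x hx => ?_) (h1.trans ?_)
  · refine ⟨hx.1, ?_⟩
    show ENNReal.ofReal a ≤ ‖F x‖ₑ
    rw [← ofReal_norm]
    exact ENNReal.ofReal_le_ofReal hx.2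
  · rw [ENNReal.ofReal_div_of_pos ha, div_eq_mul_inv, div_eq_mul_inv, mul_right_comm]
    exact mul_le_mul_left h _

theorem hPG_closed (κ : ℝ) : IsClosed (M.hPG κ) := by
  have h : M.hPG κ = ⋂ v ∈ M.ab, {T : M.G →L[ℝ] M.G |
      M.Psi (M.A v) - κ * ‖v‖ ≤ M.Psi (M.A (T v))} := by
    ext T; simp [hPG]
  rw [h]
  exact isClosed_biInter fun v _ => isClosed_le continuous_const
    (M.wg_Psi_cont.comp (M.lie_cA.comp (continuous_eval_const v)))

theorem hNb_closed (κ : ℝ) (w) : IsClosed (M.hNb κ w) := by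
  have h : M.hNb κ w = ⋂ v ∈ M.ab, {T : M.G →L[ℝ] M.G |
      ‖M.A (T v) - w (M.A v)‖ ≤ κ * ‖v‖} := by
    ext T; simp [hNb]
  rw [h]
  exact isClosed_biInter fun v _ => isClosed_le
    ((M.lie_cA.comp (continuous_eval_const v)).sub continuous_const).norm continuous_const

theorem hc_sub_gen (C₀ : ℝ) (h : 0 ≤ C₀) : ∃ (N : ℕ) (C' : ℝ), 1 ≤ C' ∧
    ∀ ν : M.G → ℝ, ν 1 ≤ 0 → (∀ g h, ν (g * h) ≤ ν g + ν h) →
    ∀ (P : Fin M.d → Prop) (t : Fin M.d → ℝ) (R : ℝ), 0 ≤ R →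
      M.Tame {y | ∃ i, P i ∧ y = t i • M.X i} →
      (∀ i, P i → ∀ u : ℝ, |u| ≤ C' → ν (u • t i • M.X i) ≤ R) →
      ∀ x ∈ C₀ • M.gen {y | ∃ i, P i ∧ y = t i • M.X i}, ν x ≤ N * R := by
  classical
  obtain ⟨N, C', hC', hb⟩ := M.bounded_gen M.d C₀ h
  refine ⟨N, C', hC', fun ν h0 hν P t R hR ht hP x hx => ?_⟩
  have he : (((Finset.univ.filter P).image fun i => t i • M.X i : Finset M.G) : Set M.G) =
      {y | ∃ i, P i ∧ y = t i • M.X i} := by
    ext y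
    simp [eq_comm]
  obtain ⟨l, h1, h2, h3⟩ := hb ((Finset.univ.filter P).image fun i => t i • M.X i)
    (Finset.card_image_le.trans ((Finset.card_filter_le _ _).trans (by simp))) (he ▸ ht) x
    (he ▸ hx)
  rw [h3]
  have hl : ∀ l : List M.G, ν l.prod ≤ (l.map ν).sum := fun l => by
    induction l with
    | nil => exact h0
    | cons a l ih =>
      rw [List.prod_cons, List.map_cons, List.sum_cons]
      linarith [hν a l.prod]
  refine (hl _).trans ?_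
  have h4 := List.sum_le_card_nsmul (((l.map fun p => p.1 • p.2)).map ν) R (by
    intro z hz
    obtain ⟨y, hy, rfl⟩ := List.mem_map.1 hz
    obtain ⟨p, hp, rfl⟩ := List.mem_map.1 hy
    have h5 : p.2 ∈ {y | ∃ i, P i ∧ y = t i • M.X i} := he ▸ (h2 p hp).2
    obtain ⟨i, hi, h6⟩ := h5
    rw [h6]
    exact hP i hi _ (h2 p hp).1)
  refine h4.trans ?_
  rw [List.length_map, List.length_map, nsmul_eq_mul]
  exact mul_le_mul_of_nonneg_right (by exact_mod_cast h1) hR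

end Vale.Agent.P188.Geo
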