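import Vale.Agent.P188.H.Basic

/-! Part H: the smoothing sets are almost invariant. -/

namespace Vale.Agent.P188.Geo
open scoped InnerProductSpace Pointwise
open MeasureTheory Filter Topology
variable (M : Geo)

theorem hccf2_proj {y : M.G} (hy : y ∈ M.e) (g : M.G) :
    M.eᗮ.starProjection (y * g) = M.eᗮ.starProjection g := by
  have key := M.lie_key g
  have h1 : y * g - g ∈ M.e := by
    rw [M.mul_eq_st (Or.inl (M.A_e hy)), lie_st, add_sub_cancel_right]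
    exact M.e.add_mem (M.bchG.mem _ _ (fun a ha b hb => Submodule.mem_sup_right (key a ha b hb)) key
      (Submodule.mem_sup_right hy)
      (Submodule.mem_sup_left (Submodule.mem_span_singleton_self g))) hy
  rw [← sub_eq_zero, ← map_sub]
  exact Submodule.starProjection_orthogonal_apply_eq_zero h1

theorem hccf2_step : ∃ C : ℝ, 1 ≤ C ∧ ∀ S, M.IsLB S → M.Tame S → ∀ a β a' : ℝ, 0 ≤ a → a ≤ 1 →
    0 ≤ β → β ≤ 1 → a + C * β ≤ a' → ∀ x ∈ a • S, ∀ y ∈ β • S, x * y ∈ a' • S := by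
  obtain ⟨C, c, h⟩ := M.mul_sub_mem 1 zero_le_one
  refine ⟨C, c, fun S hS hT a β a' a0 a1 b0 b1 ha x hx y hy => ?_⟩
  have h1 := (h S (β • S) hS hT (hS.sc.smul β) (by
      rintro u hu _ ⟨v, hv, rfl⟩
      exact ⟨_, hS.lie u hu v hv, (map_smul _ _ _).symm⟩)
    x (hS.sc.smul_mono (by rwa [abs_of_nonneg a0]) hx)
    y (hS.sc.smul_mono (by rwa [abs_of_nonneg b0]) hy) hy).1
  rw [smul_smul] at h1
  have h2 := hS.sc.add_mem a0 (by positivity) hx h1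
  rw [add_sub_cancel] at h2
  exact hS.sc.smul_mono (by rwa [abs_of_nonneg (by positivity)]) h2

theorem hF_mul (R : ℝ) : ∃ C : ℝ, 1 ≤ C ∧ ∀ r : ℝ, C ≤ r → ∀ a : ℝ, 0 ≤ a → a ≤ 1 →
    ∀ g ∈ M.hF (C * r) r a, ∀ b, M.ln b ≤ R → g * b ∈ M.hF (C * r) r (a + C / r) := by
  obtain ⟨C1, c1, h1⟩ := M.proj_Z
  obtain ⟨C2, c2, h2⟩ := M.nf_of_ln
  obtain ⟨C3, c3, h3⟩ := M.hccf2_step
  obtain ⟨C4, c4, h4⟩ := M.Z_mul
  obtain ⟨C6, c6, h6⟩ := M.Ad_Z_K
  obtain ⟨C7, c7, h7⟩ := M.Z_A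
  obtain ⟨C8, c8, h8⟩ := M.K_prod
  have hw : ∀ i, ‖M.wt i‖ ≤ M.wmax := fun i =>
    Finset.single_le_sum (f := fun i => ‖M.wt i‖) (fun _ _ => norm_nonneg _) (Finset.mem_univ i)
  have w0 : 0 ≤ M.wmax := Finset.sum_nonneg fun _ _ => norm_nonneg _
  obtain ⟨τ, hτ⟩ : ∃ τ, τ = C2 * (|R| + 1) := ⟨_, rfl⟩
  obtain ⟨D, hD⟩ : ∃ D, D = C1 * (1 + C4) + 1 + M.wmax * C7 + 2 * C6 := ⟨_, rfl⟩
  have t0 : 0 ≤ τ := by rw [hτ]; positivity
  have d1 : 0 ≤ C1 * (1 + C4) := by positivity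
  have d2 : 0 ≤ M.wmax * C7 := by positivity
  have d3 : 0 ≤ C3 * τ := by positivity
  obtain ⟨C, hC⟩ : ∃ C, C = τ + C3 * τ + C3 + D + 4 * C8 + 1 := ⟨_, rfl⟩
  refine ⟨C, by linarith, ?_⟩
  rintro r hr a a0 a1 g ⟨⟨_, ⟨ζ₀, z0, rfl⟩, e0⟩, hk⟩ b hb
  have r1 : 1 ≤ r := by linarith
  have r0 : 0 < r := by linarith
  have tr : τ ≤ r := by linarith
  obtain ⟨k1, hk1, ζ1, z1, rfl⟩ := h2 b |R| (hb.trans (le_abs_self R))
  rw [← hτ] at hk1 z1
  set ζ := a • ζ₀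
  have z2 : ζ ∈ a • M.Z r := ⟨ζ₀, z0, rfl⟩
  have z3 : ζ ∈ M.Z r := (M.Z_isLB r).sc.smul_mem z0 (by rwa [abs_of_nonneg a0])
  have e1 : M.eᗮ.starProjection g = M.eᗮ.starProjection ζ := by rw [← e0, map_smul]
  have z4 : ζ * ζ1 ∈ (a + C / r) • M.Z r := by
    refine h3 _ (M.Z_isLB r) (M.Z_tame r) a (τ / r) _ a0 a1 (by positivity)
      ((div_le_one r0).2 tr) ?_ ζ z2 ζ1
      (M.Z_subset_smul_of_le (by positivity) ((div_le_one r0).2 tr) (by rwa [div_mul_cancel₀ _ r0.ne']))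
    rw [← mul_div_assoc]
    gcongr
    linarith
  have l1 : Real.log (2 + C4 * r) ≤ (1 + C4) * r := by
    have := Real.log_le_sub_one_of_pos (by positivity : 0 < 2 + C4 * r)
    linarith
  have l2 : Real.log (2 + r) ≤ 2 * r := by
    have := Real.log_le_sub_one_of_pos (by positivity : 0 < 2 + r)
    linarith
  have d4 : C1 * (1 + C4) * r ≤ D * r := mul_le_mul_of_nonneg_right (by linarith) r0.le
  have p1 : (ζ * (M.eᗮ.starProjection ζ)⁻¹)⁻¹ ∈ M.K fun _ => D * r := by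
    have k1 : ζ * (M.eᗮ.starProjection ζ)⁻¹ ∈ M.K fun _ => D * r := by
      refine M.K_mono (fun _ _ => ?_) (h1 r r0.le ζ z3)
      have k2 : 2 * r ≤ (1 + C4) * r := mul_le_mul_of_nonneg_right (by linarith) r0.le
      have := mul_le_mul_of_nonneg_left (l2.trans k2) (zero_le_one.trans c1)
      linarith
    simpa using M.inv_mem (M.K_isLB _).sc (M.K_tame _) (M.lb_one k1)
  have p2 : M.Ad ζ k1 ∈ M.K fun _ => D * r := by
    refine M.K_mono (fun i _ => ?_) (h6 r _ r0.le (fun _ _ _ => rfl) ζ z3 ⟨k1, hk1, rfl⟩)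
    have k1 : M.wv (M.A ζ) i ≤ M.wmax * (C7 * r) := (real_inner_le_norm _ _).trans
      (mul_le_mul (hw i) (h7 r r0.le ζ z3).2 (norm_nonneg _) w0)
    have k2 := mul_le_mul_of_nonneg_left l2 (zero_le_one.trans c6)
    have k3 := mul_nonneg d1 r0.le
    rw [hD]
    linarith
  have p3 : ζ * ζ1 * (M.eᗮ.starProjection (ζ * ζ1))⁻¹ ∈ M.K fun _ => D * r := by
    refine M.K_mono (fun _ _ => ?_)
      (h1 _ (by positivity) _ (h4 r r0.le ζ z3 ζ1 (M.Z_mono t0 tr z1)))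
    have := mul_le_mul_of_nonneg_left l1 (zero_le_one.trans c1)
    linarith
  have p4 := h8 _ [(ζ * (M.eᗮ.starProjection ζ)⁻¹)⁻¹, M.Ad ζ k1,
    ζ * ζ1 * (M.eᗮ.starProjection (ζ * ζ1))⁻¹] (by
      simp only [List.forall_mem_cons]
      exact ⟨p1, p2, p3, by simp⟩)
  set p := [(ζ * (M.eᗮ.starProjection ζ)⁻¹)⁻¹, M.Ad ζ k1,
    ζ * ζ1 * (M.eᗮ.starProjection (ζ * ζ1))⁻¹].prod with hp
  have p5 : p ∈ Real.exp (-r) • M.K fun _ => C * r := by
    refine ⟨_, M.smul_K_subset r0.le (fun i _ => ?_) ⟨p, p4, rfl⟩, ?_⟩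
    · have k1 := Real.log_le_sub_one_of_pos (by positivity : 0 < C8 * 4)
      have k2 : C8 ≤ C8 * r := le_mul_of_one_le_right (by linarith) r1
      have k3 : (D + 4 * C8 + 1) * r ≤ C * r := mul_le_mul_of_nonneg_right (by linarith) r0.le
      simp only [List.length_cons, List.length_nil]
      norm_num
      linarith
    · simp only [smul_smul, ← Real.exp_add, neg_add_cancel, Real.exp_zero, one_smul]
  have e2 : g * (k1 * ζ1) = g * (M.eᗮ.starProjection g)⁻¹ *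
      ((ζ * (M.eᗮ.starProjection ζ)⁻¹)⁻¹ * M.Ad ζ k1) * (ζ * ζ1) := by
    rw [← M.conj_eq (Or.inl (M.A_e (M.K_sub_e _ hk1))), e1]
    group
  have e3 : M.eᗮ.starProjection (g * (k1 * ζ1)) = M.eᗮ.starProjection (ζ * ζ1) := by
    rw [e2]
    exact M.hccf2_proj (M.mul_mem_e (M.mul_proj_inv_mem_e g)
      (M.mul_mem_e (M.K_sub_e _ p1) (M.K_sub_e _ p2))) _
  refine ⟨?_, ?_⟩
  · obtain ⟨w, hw, e⟩ := z4
    exact ⟨_, ⟨w, hw, rfl⟩, by rw [e3, ← e]; exact (map_smul _ _ _).symm⟩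
  · have e4 : g * (k1 * ζ1) * (M.eᗮ.starProjection (ζ * ζ1))⁻¹ =
        g * (M.eᗮ.starProjection g)⁻¹ * p := by
      rw [e2, hp]
      simp only [List.prod_cons, List.prod_nil, mul_one, mul_assoc]
    have k1 : Real.exp (-r) ≤ 1 / r := by
      rw [Real.exp_neg, ← one_div]
      exact one_div_le_one_div_of_le r0 (by linarith [Real.add_one_le_exp r])
    rw [e3, e4]
    refine h3 _ (M.K_isLB _) (M.K_tame _) a (Real.exp (-r)) _ a0 a1 (Real.exp_pos _).le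
      (k1.trans ((div_le_one r0).2 r1)) ?_ _ hk p p5
    have k2 := mul_le_mul_of_nonneg_left k1 (zero_le_one.trans c3)
    have k3 : C3 / r ≤ C / r := by
      gcongr
      linarith
    rw [mul_one_div] at k2
    linarith

end Vale.Agent.P188.Geo
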