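import Vale.Agent.P188.H.CF1
import Vale.Agent.P188.H.CF2

/-! Part H: controlled Folner sets. -/

namespace Vale.Agent.P188.Geo
open scoped InnerProductSpace Pointwise
open MeasureTheory Filter Topology
variable (M : Geo)

theorem hccf_pow (d : ℕ) {β : ℝ} (h0 : 0 ≤ β) (h1 : β ≤ 1 / 2) :
    (1 + β) ^ d ≤ (1 - β) ^ d + 2 * β * d * 2 ^ d := by
  have h := abs_pow_sub_pow_le (1 + β) (1 - β) d
  rw [show 1 + β - (1 - β) = 2 * β by ring, abs_of_nonneg (show 0 ≤ 2 * β by linarith),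
    abs_of_nonneg (show 0 ≤ 1 + β by linarith), abs_of_nonneg (show 0 ≤ 1 - β by linarith),
    max_eq_left (by linarith)] at h
  have h2 : (1 + β) ^ (d - 1) ≤ 2 ^ d := (pow_le_pow_left₀ (by linarith) (by linarith) _).trans
    (pow_le_pow_right₀ one_le_two (Nat.sub_le _ _))
  have h3 := mul_le_mul_of_nonneg_left h2 (show 0 ≤ 2 * β * d by positivity)
  linarith [le_abs_self ((1 + β) ^ d - (1 - β) ^ d)]

theorem hc_cf (R : ℝ) : ∃ C : ℝ, 1 ≤ C ∧ ∀ r : ℝ, C ≤ r → ∃ F Bd, M.hFB F Bd (C * r) R ∧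
    volume Bd ≤ ENNReal.ofReal (C / r) * volume F := by
  obtain ⟨C₀, h₀, hm⟩ := M.hF_mul R
  obtain ⟨C₁, h₁, hl⟩ := M.hF_ln C₀ (by linarith)
  have hd : (0 : ℝ) ≤ 2 * C₀ * M.d * 2 ^ M.d := by positivity
  refine ⟨2 * C₀ + C₁ + 2 * C₀ * M.d * 2 ^ M.d, by linarith, fun r hr => ?_⟩
  have r0 : 0 < r := by linarith
  have b0 : 0 ≤ C₀ / r := by positivity
  have b1 : C₀ / r ≤ 1 / 2 := by
    rw [div_le_iff₀ r0]
    linarith
  have hs : ∀ a : ℝ, 0 ≤ a → a ≤ 2 →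
      M.hF (C₀ * r) r a ⊆ M.hBl ((2 * C₀ + C₁ + 2 * C₀ * M.d * 2 ^ M.d) * r) := fun a p q g hg =>
    le_trans (hl r (by linarith) (M.hF_mono _ _ p q hg))
      (mul_le_mul_of_nonneg_right (by linarith) r0.le)
  have hp := M.hF_pos (C₀ * r) r0
  refine ⟨M.hF (C₀ * r) r 1, M.hF (C₀ * r) r (1 + C₀ / r) \ M.hF (C₀ * r) r (1 - C₀ / r),
    ⟨M.hF_meas _ _ _, (M.hF_meas _ _ _).diff (M.hF_meas _ _ _), hp.1, hp.2, by positivity,
      hs 1 zero_le_one one_le_two, Set.sdiff_subset.trans (hs _ (by linarith) (by linarith)), ?_⟩, ?_⟩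
  · rintro x ⟨⟨b, hb, hx⟩, b', hb', hx'⟩
    refine ⟨?_, fun h => hx' ?_⟩
    · have := hm r (by linarith) 1 zero_le_one le_rfl _ hx b⁻¹ (by rwa [M.ln_inv])
      rwa [mul_inv_cancel_right] at this
    · have := hm r (by linarith) _ (by linarith) (by linarith) _ h b' hb'
      rwa [sub_add_cancel] at this
  · have e1 := M.hF_vol (C₀ * r) r (a := 1 - C₀ / r) (by linarith)
    rw [measure_sdiff (M.hF_mono _ _ (by linarith) (by linarith))
      (M.hF_meas _ _ _).nullMeasurableSet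
      (by rw [e1]; exact ENNReal.mul_ne_top ENNReal.ofReal_ne_top hp.2), tsub_le_iff_left, e1,
      M.hF_vol (C₀ * r) r (a := 1 + C₀ / r) (by linarith), ← add_mul,
      ← ENNReal.ofReal_add (pow_nonneg (by linarith) _) (by positivity)]
    refine mul_le_mul_left (ENNReal.ofReal_le_ofReal ((hccf_pow M.d b0 b1).trans ?_)) _
    have h2 : 0 ≤ (2 * C₀ + C₁) / r := by positivity
    rw [add_div (2 * C₀ + C₁), show 2 * C₀ * M.d * 2 ^ M.d / r = 2 * (C₀ / r) * M.d * 2 ^ M.d by ring]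
    linarith

end Vale.Agent.P188.Geo
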