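import Vale.Agent.P188.H.Basic

/-! Part H: volume and size of the smoothing sets. -/

namespace Vale.Agent.P188.Geo
open scoped InnerProductSpace Pointwise
open MeasureTheory Filter Topology
variable (M : Geo)

theorem hccf1_meas {P Y : Set M.G} (hP : MeasurableSet P) (hY : MeasurableSet Y) : MeasurableSet
    {g : M.G | M.eᗮ.starProjection g ∈ P ∧ g * (M.eᗮ.starProjection g)⁻¹ ∈ Y} :=
  have hc := M.eᗮ.starProjection.continuous
  (hc.measurable hP).inter ((continuous_id.mul hc.inv).measurable hY)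

theorem hccf1_fub {P Y : Set M.G} (hP : MeasurableSet P) (hY : MeasurableSet Y) :
    volume {g : M.G | M.eᗮ.starProjection g ∈ P ∧ g * (M.eᗮ.starProjection g)⁻¹ ∈ Y} =
      M.mE Y * subMu M.eᗮ P := by
  have hm := M.hccf1_meas hP hY
  rw [← lintegral_indicator_one hm, M.fubini_G (measurable_one.indicator hm),
    ← lintegral_indicator_const hP]
  refine lintegral_congr_ae ((subMu_ae _).mono fun q hq => ?_)
  by_cases h : q ∈ P
  · rw [Set.indicator_of_mem h, ← lintegral_indicator_one hY]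
    refine lintegral_congr_ae ((subMu_ae _).mono fun y hy => ?_)
    by_cases h' : y ∈ Y <;> simp [Set.indicator, M.qv_proj hy hq, h, h']
  · rw [Set.indicator_of_notMem h]
    refine (lintegral_congr_ae ((subMu_ae _).mono fun y hy => ?_)).trans lintegral_zero
    simp [Set.indicator, M.qv_proj hy hq, h]

theorem hccf1_cpt (r : ℝ) : IsCompact (M.eᗮ.starProjection '' M.Z r) :=
  (M.Z_isLB r).compact.image M.eᗮ.starProjection.continuous

theorem hF_meas (ρ r a : ℝ) : MeasurableSet (M.hF ρ r a) :=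
  M.hccf1_meas ((M.hccf1_cpt r).smul a).measurableSet ((M.K_isLB _).compact.smul a).measurableSet

theorem hF_mono (ρ r : ℝ) {a a' : ℝ} (h0 : 0 ≤ a) (h : a ≤ a') : M.hF ρ r a ⊆ M.hF ρ r a' := by
  have h1 : |a| ≤ a' := by rwa [abs_of_nonneg h0]
  exact fun g hg => ⟨((M.Z_isLB r).sc.image M.eᗮ.starProjection.toLinearMap).smul_mono h1 hg.1,
    (M.K_isLB _).sc.smul_mono h1 hg.2⟩

theorem hccf1_vol (ρ r a : ℝ) : volume (M.hF ρ r a) =
    subMu M.e (a • M.K fun _ => ρ) * subMu M.eᗮ (a • (M.eᗮ.starProjection '' M.Z r)) :=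
  M.hccf1_fub ((M.hccf1_cpt r).smul a).measurableSet ((M.K_isLB _).compact.smul a).measurableSet

theorem hF_vol (ρ r : ℝ) {a : ℝ} (ha : 0 < a) :
    volume (M.hF ρ r a) = ENNReal.ofReal (a ^ M.d) * volume (M.hF ρ r 1) := by
  have hd : Module.finrank ℝ M.e + Module.finrank ℝ M.eᗮ = M.d :=
    M.e.finrank_add_finrank_orthogonal.trans (finrank_euclideanSpace_fin (𝕜 := ℝ) (n := M.d))
  rw [hccf1_vol, hccf1_vol, subMu_smul _ a ha.ne', subMu_smul _ a ha.ne', one_smul, one_smul,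
    abs_of_pos ha, mul_mul_mul_comm, ← ENNReal.ofReal_mul (by positivity), ← pow_add, hd]

theorem hF_pos (ρ : ℝ) {r : ℝ} (hr : 0 < r) :
    volume (M.hF ρ r 1) ≠ 0 ∧ volume (M.hF ρ r 1) ≠ ⊤ := by
  obtain ⟨C, hC, h⟩ := M.mem_Z
  have C0 : 0 < C := by linarith
  rw [hccf1_vol, one_smul, one_smul]
  refine ⟨mul_ne_zero (ENNReal.toReal_pos_iff.1 (M.mE_K_pos _)).1.ne'
    (subMu_pos _ (div_pos hr C0) fun x hx h1 => ⟨x, ?_, Submodule.starProjection_eq_self_iff.2 hx⟩),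
    ENNReal.mul_ne_top (M.K_isLB _).compact.measure_lt_top.ne (M.hccf1_cpt r).measure_lt_top.ne⟩
  exact M.Z_mono (by positivity) ((le_div_iff₀' C0).1 h1) (h x (M.e_orth_le hx))

theorem hF_ln (C₀ : ℝ) (h : 0 ≤ C₀) : ∃ C : ℝ, 1 ≤ C ∧ ∀ r : ℝ, 1 ≤ r →
    M.hF (C₀ * r) r 2 ⊆ M.hBl (C * r) := by
  obtain ⟨A, hA, h1⟩ := M.ln_K 2 two_pos.le
  obtain ⟨B, hB, h2⟩ := M.ln_K 1 one_pos.le
  obtain ⟨D, hD, h3⟩ := M.ln_Z
  obtain ⟨E, hE, h4⟩ := M.proj_Z
  have p1 : 0 ≤ A * (C₀ + 1) := by positivity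
  have p2 : 0 ≤ B * (4 * E + 1) := by positivity
  refine ⟨A * (C₀ + 1) + B * (4 * E + 1) + D * 3, by linarith, fun r hr g hg => ?_⟩
  obtain ⟨⟨_, ⟨z, hz, rfl⟩, e⟩, hk⟩ := hg
  have hζ : (2 : ℝ) • z ∈ M.Z (2 * r) := M.smul_Z_subset one_le_two (Set.smul_mem_smul_set hz)
  have e2 : M.eᗮ.starProjection ((2 : ℝ) • z) = M.eᗮ.starProjection g := (map_smul _ _ _).trans e
  have l0 : 0 ≤ Real.log (2 + 2 * r) := Real.log_nonneg (by linarith)
  have l1 : Real.log (2 + 2 * r) ≤ 4 * r :=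
    (Real.log_le_sub_one_of_pos (by linarith)).trans (by linarith)
  have a1 := h1 _ (C₀ * r) (by positivity) (fun _ _ => le_rfl) _ hk
  have a2 := h2 _ (E * (4 * r)) (by positivity)
    (fun _ _ => mul_le_mul_of_nonneg_left l1 (by positivity)) _
    (M.lb_one (h4 _ (by positivity) _ hζ))
  have a3 := h3 _ (by positivity) _ hζ
  rw [e2] at a2
  generalize M.eᗮ.starProjection g = q at a1 a2
  generalize (2 : ℝ) • z = ζ at a2 a3
  have a4 := M.ln_mul (g * q⁻¹) ((ζ * q⁻¹)⁻¹ * ζ)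
  have a5 := M.ln_mul (ζ * q⁻¹)⁻¹ ζ
  rw [show g * q⁻¹ * ((ζ * q⁻¹)⁻¹ * ζ) = g by group] at a4
  rw [ln_inv] at a5
  have b1 := mul_le_mul_of_nonneg_left hr (show 0 ≤ A by linarith)
  have b2 := mul_le_mul_of_nonneg_left hr (show 0 ≤ B by linarith)
  have b3 := mul_le_mul_of_nonneg_left hr (show 0 ≤ D by linarith)
  show M.ln g ≤ _
  linarith

end Vale.Agent.P188.Geo
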