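import Vale.Agent.P188.H.Shift

/-! Part H: the smoothing identity for one step. -/

namespace Vale.Agent.P188.Geo
open scoped InnerProductSpace Pointwise
open MeasureTheory Filter Topology
variable (M : Geo)

theorem hcch1_int {G : M.G → M.G} (hG : Measurable G) {ρ B : ℝ}
    (h : ∀ g, M.ln g ≤ ρ → ‖G g‖ ≤ B) {S : Set M.G} (hS : S ⊆ M.hBl ρ) : IntegrableOn G S :=
  (Measure.integrableOn_of_bounded (M.hc_Bl ρ).2 hG.aestronglyMeasurable
    ((ae_restrict_iff' (M.hc_Bl ρ).1).2 (Eventually.of_forall h))).mono_set hS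

theorem hcch1_avg {G : M.G → M.G} {F : Set M.G} (h0 : volume F ≠ 0) (hT : volume F ≠ ⊤) {B : ℝ}
    (h : ∀ g ∈ F, ‖G g‖ ≤ B) : ‖(volume.real F)⁻¹ • ∫ g in F, G g‖ ≤ B := by
  have hv : 0 < volume.real F := ENNReal.toReal_pos h0 hT
  rw [norm_smul, Real.norm_of_nonneg (by positivity), inv_mul_le_iff₀ hv, mul_comm]
  exact norm_setIntegral_le_of_norm_le_const hT.lt_top h

theorem hc_step (D D' : ℝ) : ∃ C : ℝ, 1 ≤ C ∧ ∀ f L, M.hCL D f → M.hLM D' L →
    ∀ F Bd ρ R, M.hFB F Bd ρ R → ∃ Θ : M.G → M.G, (∀ y, ‖Θ y‖ ≤ C * (ρ + 1)) ∧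
      ∀ y b, M.ln b ≤ R → ‖M.hErr f L y b - Θ y + Θ (y * b)‖ₑ ≤
        M.hrb f L F Bd y + ENNReal.ofReal (C * (ρ + 1)) * ‖L (y * b) - L y‖ₑ := by
  obtain ⟨C₁, hC₁, he⟩ := M.hErr_le D D'
  obtain ⟨Ca, hCa, ha⟩ := M.norm_ah_le
  refine ⟨C₁ + Ca, by linarith, fun f L hf hL F Bd ρ R h => ?_⟩
  have hρ := h.nonneg
  have hv : 0 < volume.real F := ENNReal.toReal_pos h.ne0 h.neT
  have hm : ∀ y, Measurable fun g : M.G => M.hErr f L y g⁻¹ := fun y =>
    (M.hErr_meas hf.1 hL.1).comp (measurable_const.prodMk measurable_inv)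
  have hb : ∀ y r g, M.ln g ≤ r → ‖M.hErr f L y g⁻¹‖ ≤ C₁ * (r + 1) := fun y r g hg =>
    (he f L hf hL y _).trans (by rw [M.ln_inv]; gcongr)
  refine ⟨fun y => (volume.real F)⁻¹ • ∫ g in F, M.hErr f L y g⁻¹, fun y =>
    (M.hcch1_avg h.ne0 h.neT fun g hg => hb y ρ g (h.sF hg)).trans (by gcongr; linarith),
    fun y b hbR => ?_⟩
  have hd : ∀ g, M.ln g ≤ ρ → ‖(L (y * b) - L y) (M.ah g)‖ ≤
      (C₁ + Ca) * (ρ + 1) * ‖L (y * b) - L y‖ := fun g hg => by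
    refine ((L (y * b) - L y).le_opNorm _).trans ?_
    rw [mul_comm]
    refine mul_le_mul_of_nonneg_right ((ha g).1.trans ?_) (norm_nonneg _)
    nlinarith
  have i1 : IntegrableOn (fun g : M.G => M.hErr f L y (g * b⁻¹)⁻¹) F :=
    M.hcch1_int ((hm y).comp (measurable_mul_const _)) (fun g hg => hb y (ρ + R) _
      ((M.ln_mul _ _).trans (by rw [M.ln_inv]; linarith))) h.sF
  have i2 := M.hcch1_int (hm (y * b)) (hb _ ρ) h.sF
  have i3 : IntegrableOn (fun g : M.G => (L (y * b) - L y) (M.ah g)) F :=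
    M.hcch1_int ((L (y * b) - L y).continuous.comp M.ah.continuous).measurable hd h.sF
  have e1 : ∀ g : M.G, M.hErr f L y b =
      M.hErr f L y (g * b⁻¹)⁻¹ - M.hErr f L (y * b) g⁻¹ + (L (y * b) - L y) (M.ah g) := fun g => by
    simp only [hErr, mul_inv_rev, inv_inv, M.ah_mul, M.hc_ah_inv, mul_assoc, map_add, map_neg,
      sub_apply]
    abel
  have e2 : volume.real F • M.hErr f L y b = (∫ g in F, M.hErr f L y (g * b⁻¹)⁻¹) -
      (∫ g in F, M.hErr f L (y * b) g⁻¹) + ∫ g in F, (L (y * b) - L y) (M.ah g) := by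
    rw [← setIntegral_const, ← integral_sub i1 i2]
    exact (integral_congr_ae (Eventually.of_forall e1)).trans (integral_add (i1.sub i2) i3)
  have e3 : M.hErr f L y b - (volume.real F)⁻¹ • (∫ g in F, M.hErr f L y g⁻¹) +
      (volume.real F)⁻¹ • (∫ g in F, M.hErr f L (y * b) g⁻¹) =
      (volume.real F)⁻¹ • ((∫ g in F, M.hErr f L y (g * b⁻¹)⁻¹) - ∫ g in F, M.hErr f L y g⁻¹) +
        (volume.real F)⁻¹ • ∫ g in F, (L (y * b) - L y) (M.ah g) := by
    rw [← inv_smul_smul₀ hv.ne' (M.hErr f L y b), e2]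
    module
  rw [e3]
  refine (enorm_add_le _ _).trans (add_le_add ?_ ?_)
  · have h1 := M.hc_shift (fun g : M.G => M.hErr f L y g⁻¹) h.mF h.mB (g := b⁻¹)
      (by rwa [M.ln_inv]) h.bd (M.hcch1_int (hm y) (hb y ρ) (Set.union_subset h.sF h.sB))
    rw [enorm_smul, Real.enorm_eq_ofReal (by positivity), ENNReal.ofReal_inv_of_pos hv,
      ofReal_measureReal h.neT, hrb, ENNReal.div_eq_inv_mul]
    exact mul_le_mul_right h1 _
  · rw [← ofReal_norm, ← ofReal_norm, ← ENNReal.ofReal_mul (by positivity)]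
    exact ENNReal.ofReal_le_ofReal (M.hcch1_avg h.ne0 h.neT fun g hg => hd g (h.sF hg))

end Vale.Agent.P188.Geo
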