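import Vale.Agent.P188.H.Basic

/-! Part H: oscillation, boundary term and pull-back estimates. -/

namespace Vale.Agent.P188.Geo
open scoped InnerProductSpace Pointwise
open MeasureTheory Filter Topology
variable (M : Geo)

theorem hcsig_meas {L : M.G → (M.G →L[ℝ] M.G)} (hL : Measurable L) :
    Measurable fun p : M.G × M.G => ‖L (p.1 * p.2) - L p.1‖ₑ :=
  ((hL.comp (measurable_fst.mul measurable_snd)).sub (hL.comp measurable_fst)).enorm

theorem hcsig_meas' {f L} (hf : Measurable f) (hL : Measurable L) :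
    Measurable fun p : M.G × M.G => ‖M.hErr f L p.1 p.2⁻¹‖ₑ :=
  ((M.hErr_meas hf hL).comp (measurable_fst.prodMk measurable_snd.inv)).enorm

theorem hcsig_swap {H : M.G × M.G → ENNReal} (hH : Measurable H) (S : Set M.G) {B : Set M.G}
    (hB : MeasurableSet B) {c v : ENNReal} (hv : v ≠ 0)
    (h : ∀ t ∈ B, ∫⁻ y in S, H (y, t) ≤ c) :
    ∫⁻ y in S, (∫⁻ t in B, H (y, t)) / v ≤ volume B / v * c := by
  simp only [div_eq_mul_inv]
  rw [lintegral_mul_const' _ _ (ENNReal.inv_ne_top.2 hv),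
    lintegral_lintegral_swap (f := fun y t => H (y, t)) hH.aemeasurable, mul_right_comm]
  refine mul_le_mul_left ((setLIntegral_mono' hB h).trans (le_of_eq ?_)) _
  rw [setLIntegral_const, mul_comm]

theorem hsig_meas {L} (hL : Measurable L) (R : ℝ) : Measurable (M.hsig L R) := by
  exact (Measurable.lintegral_prod_right' (ν := volume.restrict (M.hBl R))
    (M.hcsig_meas hL)).div_const _

theorem hrb_meas {f L} (hf : Measurable f) (hL : Measurable L) (F Bd : Set M.G) :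
    Measurable (M.hrb f L F Bd) := by
  have h : Measurable fun y => ∫⁻ g in Bd, ‖M.hErr f L y g⁻¹‖ₑ :=
    Measurable.lintegral_prod_right (f := fun y g => ‖M.hErr f L y g⁻¹‖ₑ) (M.hcsig_meas' hf hL)
  unfold hrb
  exact h.div_const _

theorem hcsig_tri {E : Type*} [NormedAddCommGroup E] (a b c : E) :
    ‖b - a‖ₑ ≤ ‖c - a‖ₑ + ‖c - b‖ₑ := by
  have e : b - a = (c - a) - (c - b) := by abel
  rw [e]
  exact enorm_sub_le

theorem hcsig_shift (G : M.G → ENNReal) {R : ℝ} {b : M.G} (h : M.ln b ≤ R) :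
    ∫⁻ q in M.Q, G (b * q) ≤ ∫⁻ t in M.hBl (R + 1), G t := by
  rw [← lintegral_indicator (M.hc_Bl _).1, ← lintegral_indicator M.hc_meas_Q,
    ← lintegral_mul_left_eq_self ((M.hBl (R + 1)).indicator G) b]
  refine lintegral_mono fun q => ?_
  by_cases hq : q ∈ M.Q
  · have h2 : b * q ∈ M.hBl (R + 1) := by
      have h3 := M.ln_mul b q
      have h4 := M.hc_ln_Q hq
      change M.ln (b * q) ≤ R + 1
      linarith
    simp only [Set.indicator_of_mem hq, Set.indicator_of_mem h2, le_refl]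
  · simp only [Set.indicator_of_notMem hq, zero_le]

theorem hsig_le {L} (hL : Measurable L) {R : ℝ} {y b : M.G} (h : M.ln b ≤ R) :
    ‖L (y * b) - L y‖ₑ ≤ M.hsig L (R + 1) y + M.hsig L (R + 1) (y * b) := by
  have h0 := M.ln_nonneg b
  have hm : Measurable fun t => ‖L (y * b * t) - L (y * b)‖ₑ :=
    ((hL.comp (measurable_const_mul (y * b))).sub_const _).enorm
  have h1 := M.hcsig_shift (fun t => ‖L (y * t) - L y‖ₑ) h
  have h2 : ∫⁻ q in M.Q, ‖L (y * b * q) - L (y * b)‖ₑ ≤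
      ∫⁻ t in M.hBl (R + 1), ‖L (y * b * t) - L (y * b)‖ₑ :=
    lintegral_mono_set fun q hq => by
      have h4 := M.hc_ln_Q hq
      change M.ln q ≤ R + 1
      linarith
  have h3 : ‖L (y * b) - L y‖ₑ * volume M.Q ≤ ∫⁻ q in M.Q, ‖L (y * (b * q)) - L y‖ₑ +
      ‖L (y * b * q) - L (y * b)‖ₑ := by
    rw [← setLIntegral_const]
    refine lintegral_mono fun q => ?_
    rw [mul_assoc]
    exact hcsig_tri _ _ _
  rw [lintegral_add_right _ hm] at h3
  rw [hsig, hsig, ← ENNReal.add_div,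
    ENNReal.le_div_iff_mul_le (Or.inl M.hc_vol_Q.1) (Or.inl M.hc_vol_Q.2)]
  exact h3.trans (add_le_add h1 h2)

theorem hsig_int (R : ℝ) : ∃ V : ℝ, 1 ≤ V ∧ ∀ L, Measurable L → ∀ (S : Set M.G) (ε : ℝ),
    M.hInv L S R ε → ∫⁻ y in S, M.hsig L R y ≤ ENNReal.ofReal (V * ε) * volume S := by
  have hv : volume (M.hBl R) / volume M.Q ≠ ⊤ := ENNReal.div_ne_top (M.hc_Bl R).2 M.hc_vol_Q.1
  have h0 := ENNReal.toReal_nonneg (a := volume (M.hBl R) / volume M.Q)
  refine ⟨1 + (volume (M.hBl R) / volume M.Q).toReal, by linarith, fun L hL S ε h => ?_⟩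
  refine (M.hcsig_swap (M.hcsig_meas hL) S (M.hc_Bl R).1 M.hc_vol_Q.1 h).trans ?_
  rw [ENNReal.ofReal_mul (by linarith), mul_assoc]
  refine mul_le_mul_left ?_ _
  rw [ENNReal.ofReal_add zero_le_one h0, ENNReal.ofReal_toReal hv]
  exact le_add_self

theorem hrb_int {f L} (hf : Measurable f) (hL : Measurable L) {F Bd S : Set M.G} {ρ R θ ε : ℝ}
    (hF : M.hFB F Bd ρ R) (hθ : 0 ≤ θ) (hB : volume Bd ≤ ENNReal.ofReal θ * volume F)
    (h : M.hLF f L S ρ ε) :
    ∫⁻ y in S, M.hrb f L F Bd y ≤ ENNReal.ofReal (θ * ε) * volume S := by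
  refine (M.hcsig_swap (M.hcsig_meas' hf hL) S hF.mB hF.ne0 fun g hg =>
    h g⁻¹ (by rw [M.ln_inv]; exact hF.sB hg)).trans ?_
  rw [ENNReal.ofReal_mul hθ, mul_assoc]
  exact mul_le_mul_left (ENNReal.div_le_of_le_mul hB) _

theorem hc_pb (K C : ℝ) : ∃ C' : ℝ, 1 ≤ C' ∧ ∀ φ, M.MQI K C φ → ∀ h : M.G → ENNReal,
    Measurable h → ∀ T S' : Set M.G, MeasurableSet T → MeasurableSet S' → ∀ g,
      (∀ x ∈ T, ∀ ω ∈ M.Q, φ (x * g) * ω ∈ S') →
      ∫⁻ x in T, ∫⁻ ω in M.Q, h (φ (x * g) * ω) ≤ ENNReal.ofReal C' * ∫⁻ y in S', h y := by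
  obtain ⟨C', hC', H⟩ := M.lintegral_comp_le K C
  refine ⟨C', hC', fun φ hφ h hh T S' hT hS' g hg => ?_⟩
  have h1 := H φ hφ (S'.indicator h) (hh.indicator hS')
  rw [lintegral_indicator hS', ← lintegral_mul_right_eq_self _ g] at h1
  refine le_trans ?_ ((setLIntegral_le_lintegral T _).trans h1)
  refine setLIntegral_mono' hT fun x hx => setLIntegral_mono' M.hc_meas_Q fun ω hω => ?_
  rw [Set.indicator_of_mem (hg x hx ω hω)]

end Vale.Agent.P188.Geo
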