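import Vale.Agent.P188.H.CH1
import Vale.Agent.P188.H.Sig

/-! Part H: the chain estimate along a path. -/

namespace Vale.Agent.P188.Geo
open scoped InnerProductSpace Pointwise
open MeasureTheory Filter Topology
variable (M : Geo)

theorem hcch2_tel {E : Type} [NormedAddCommGroup E] (u : ℕ → E) (k : ℕ) :
    ‖u k - u 0‖ₑ ≤ ∑ j ∈ Finset.range k, ‖u (j + 1) - u j‖ₑ := by
  rw [← Finset.sum_range_sub]
  exact enorm_sum_le _ _

theorem hcch2_id (f : M.G → M.G) (L : M.G → (M.G →L[ℝ] M.G)) (x y z : M.G) :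
    M.hErr f L x (x⁻¹ * z) = M.hErr f L x (x⁻¹ * y) + M.hErr f L y (y⁻¹ * z) +
      (L y - L x) (M.ah (y⁻¹ * z)) := by
  have h : M.ah (x⁻¹ * z) = M.ah (x⁻¹ * y) + M.ah (y⁻¹ * z) := by
    rw [← M.ah_mul, mul_assoc, mul_inv_cancel_left]
  simp only [hErr, mul_inv_cancel_left, h, map_add, sub_apply]
  abel

theorem hc_chain (D D' R : ℝ) : ∃ C : ℝ, 1 ≤ C ∧ ∀ f L, M.hCL D f → M.hLM D' L →
    ∀ F Bd ρ, M.hFB F Bd ρ R → ∀ (m : ℕ) (y : ℕ → M.G),
      (∀ j < m, M.ln ((y j)⁻¹ * y (j + 1)) ≤ R) →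
      ‖M.hErr f L (y 0) ((y 0)⁻¹ * y m)‖ₑ ≤ ENNReal.ofReal (C * (ρ + 1)) +
        ∑ j ∈ Finset.range (m + 1), (M.hrb f L F Bd (y j) +
          ENNReal.ofReal (C * (ρ + 1 + m)) * M.hsig L (R + 1) (y j)) := by
  obtain ⟨C₁, h1, hs⟩ := M.hc_step D D'
  obtain ⟨C₂, h2, ha⟩ := M.norm_ah_le
  have hR : 0 ≤ C₂ * |R| := by positivity
  refine ⟨2 * C₁ + 2 * (C₂ * |R|), by linarith, fun f L hf hL F Bd ρ hF m y hy => ?_⟩
  obtain ⟨Θ, hΘ, hst⟩ := hs f L hf hL F Bd ρ R hF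
  have hρ := hF.nonneg
  have hc : 0 ≤ C₁ * (ρ + 1) := by positivity
  set A := ∑ j ∈ Finset.range m, ‖L (y (j + 1)) - L (y j)‖ₑ with hA
  have hA2 : A ≤ 2 * ∑ j ∈ Finset.range (m + 1), M.hsig L (R + 1) (y j) := by
    refine (Finset.sum_le_sum fun j hj => ?_ : _ ≤ ∑ j ∈ Finset.range m,
      (M.hsig L (R + 1) (y j) + M.hsig L (R + 1) (y (j + 1)))).trans ?_
    · simpa only [mul_inv_cancel_left] using
        M.hsig_le hL.1 (y := y j) (hy j (Finset.mem_range.1 hj))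
    · rw [Finset.sum_add_distrib, two_mul]
      refine add_le_add ?_ ?_
      · rw [Finset.sum_range_succ]
        exact le_self_add
      · rw [Finset.sum_range_succ']
        exact le_self_add
  have h3 := hcch2_tel (fun k => M.hErr f L (y 0) ((y 0)⁻¹ * y k) + Θ (y k)) m
  have h4 : ∀ j ∈ Finset.range m, ‖M.hErr f L (y 0) ((y 0)⁻¹ * y (j + 1)) + Θ (y (j + 1)) -
      (M.hErr f L (y 0) ((y 0)⁻¹ * y j) + Θ (y j))‖ₑ ≤ M.hrb f L F Bd (y j) +
        ENNReal.ofReal (C₁ * (ρ + 1)) * ‖L (y (j + 1)) - L (y j)‖ₑ +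
        A * ENNReal.ofReal (C₂ * |R|) := fun j hj => by
    have hj' := Finset.mem_range.1 hj
    have h5 := hst (y j) _ (hy j hj')
    rw [mul_inv_cancel_left] at h5
    have h6 : ‖(L (y j) - L (y 0)) (M.ah ((y j)⁻¹ * y (j + 1)))‖ₑ ≤
        A * ENNReal.ofReal (C₂ * |R|) := by
      refine (ContinuousLinearMap.le_opENorm _ _).trans (mul_le_mul' ((hcch2_tel
        (fun k => L (y k)) j).trans (Finset.sum_le_sum_of_subset
          (Finset.range_subset_range.2 hj'.le))) ?_)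
      rw [← ofReal_norm]
      exact ENNReal.ofReal_le_ofReal ((ha _).1.trans
        (mul_le_mul_of_nonneg_left ((hy j hj').trans (le_abs_self R)) (by linarith)))
    refine le_trans (le_of_eq ?_) ((enorm_add_le _ _).trans (add_le_add h5 h6))
    rw [M.hcch2_id f L (y 0) (y j) (y (j + 1))]
    congr 1
    abel
  have h5 : M.hErr f L (y 0) ((y 0)⁻¹ * y 0) = 0 := by
    rw [inv_mul_cancel, hErr, mul_one, sub_self, one_def, map_zero, map_zero, sub_zero]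
  have h6 : ‖Θ (y 0) - Θ (y m)‖ₑ ≤ ENNReal.ofReal ((2 * C₁ + 2 * (C₂ * |R|)) * (ρ + 1)) := by
    rw [← ofReal_norm]
    refine ENNReal.ofReal_le_ofReal ((norm_sub_le _ _).trans ?_)
    nlinarith [hΘ (y 0), hΘ (y m)]
  have h7 : (ENNReal.ofReal (C₁ * (ρ + 1)) + m * ENNReal.ofReal (C₂ * |R|)) * 2 ≤
      ENNReal.ofReal ((2 * C₁ + 2 * (C₂ * |R|)) * (ρ + 1 + m)) := by
    have hm : (0 : ℝ) ≤ m := m.cast_nonneg
    rw [← ENNReal.ofReal_natCast, ← ENNReal.ofReal_mul hm,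
      ← ENNReal.ofReal_add hc (mul_nonneg hm hR), ← ENNReal.ofReal_ofNat,
      ← ENNReal.ofReal_mul (add_nonneg hc (mul_nonneg hm hR))]
    refine ENNReal.ofReal_le_ofReal ?_
    nlinarith [mul_nonneg hR hρ, mul_nonneg hm (zero_le_one.trans h1)]
  have h8 := h3.trans (Finset.sum_le_sum h4)
  rw [h5, zero_add, Finset.sum_add_distrib, Finset.sum_add_distrib, ← Finset.mul_sum, ← hA,
    Finset.sum_const, Finset.card_range, nsmul_eq_mul, add_assoc, mul_comm A, ← mul_assoc,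
    ← add_mul] at h8
  rw [Finset.sum_add_distrib, ← Finset.mul_sum, show M.hErr f L (y 0) ((y 0)⁻¹ * y m) =
    (Θ (y 0) - Θ (y m)) + (M.hErr f L (y 0) ((y 0)⁻¹ * y m) + Θ (y m) - Θ (y 0)) by abel]
  refine (enorm_add_le _ _).trans (add_le_add h6 (h8.trans (add_le_add ?_ ?_)))
  · rw [Finset.sum_range_succ]
    exact le_self_add
  · refine (mul_le_mul_right hA2 _).trans ?_
    rw [← mul_assoc]
    exact mul_le_mul_left h7 _

end Vale.Agent.P188.Geo
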