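import Vale.Agent.P188.H.LF

/-! Part H: mean invariance of the derivative. -/

namespace Vale.Agent.P188.Geo
open scoped InnerProductSpace Pointwise
open MeasureTheory Filter Topology
variable (M : Geo)

theorem hcli_id (f : M.G → M.G) (L : M.G → (M.G →L[ℝ] M.G)) (N : ℝ) (i : Fin M.d) (x t : M.G) :
    M.hDq f N i (x * t) - M.hDq f N i x = N⁻¹ • (M.hErr f L x (t * N • M.hcv i) -
      M.hErr f L x (N • M.hcv i) + (L x (M.ah t) - (f (x * t) - f x))) := by
  rw [hDq, hDq, ← smul_sub, hErr, hErr, M.ah_mul, map_add, mul_assoc]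
  congr 1
  abel

theorem hcli_one {f : M.G → M.G} {L : M.G → (M.G →L[ℝ] M.G)} (hf : Measurable f)
    (hL : Measurable L) {S : Set M.G} {N θ : ℝ} (hN : 1 ≤ N) (hθ : 0 < θ)
    (h : M.hLF f L S (3 * N) (θ * N)) {t : M.G} (ht : M.ln t + 1 ≤ N)
    (hb : ∀ x, ‖L x (M.ah t) - (f (x * t) - f x)‖ ≤ θ * N) (i : Fin M.d) :
    ∫⁻ x in S, ‖M.hDq f N i (x * t) - M.hDq f N i x‖ₑ ≤ ENNReal.ofReal (3 * θ) * volume S := by
  have h0 : 0 < N := by linarith
  have l1 : M.ln (N • M.hcv i) ≤ N + 1 := by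
    simpa only [abs_of_pos h0] using M.hc_ln_smul (M.hcv_u0 i) (M.norm_hcv i) N
  have k1 := h (t * N • M.hcv i) ((M.ln_mul _ _).trans (by linarith))
  have k2 := h (N • M.hcv i) (by linarith)
  have m : ∀ g, Measurable fun x => ‖M.hErr f L x g‖ₑ := fun g =>
    ((M.hErr_meas hf hL).comp measurable_prodMk_right).enorm
  calc _ ≤ ∫⁻ x in S, ENNReal.ofReal N⁻¹ * (‖M.hErr f L x (t * N • M.hcv i)‖ₑ +
        ‖M.hErr f L x (N • M.hcv i)‖ₑ + ENNReal.ofReal (θ * N)) := by
        refine lintegral_mono fun x => ?_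
        rw [M.hcli_id f L, enorm_smul, Real.enorm_eq_ofReal (by positivity)]
        gcongr
        refine (enorm_add_le _ _).trans (add_le_add enorm_sub_le ?_)
        rw [← ofReal_norm]
        exact ENNReal.ofReal_le_ofReal (hb x)
    _ = ENNReal.ofReal N⁻¹ * ((∫⁻ x in S, ‖M.hErr f L x (t * N • M.hcv i)‖ₑ) +
        (∫⁻ x in S, ‖M.hErr f L x (N • M.hcv i)‖ₑ) + ENNReal.ofReal (θ * N) * volume S) := by
        rw [lintegral_const_mul' _ _ ENNReal.ofReal_ne_top, lintegral_add_right _ measurable_const,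
          lintegral_add_left (m _), setLIntegral_const]
    _ ≤ ENNReal.ofReal N⁻¹ * (ENNReal.ofReal (θ * N) * volume S +
        ENNReal.ofReal (θ * N) * volume S + ENNReal.ofReal (θ * N) * volume S) := by
        gcongr
    _ = _ := by
        rw [← add_mul, ← add_mul, ← mul_assoc, ← ENNReal.ofReal_add (by positivity) (by positivity),
          ← ENNReal.ofReal_add (by positivity) (by positivity),
          ← ENNReal.ofReal_mul (by positivity)]
        congr 2
        field_simp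
        ring

theorem hc_li (u : Ultrafilter ℕ) {D : ℝ} (f : ℕ → M.G → M.G) (hf : ∀ n, M.hCL D (f n))
    (S : ℕ → Set M.G) (hS : M.Fol (u : Filter ℕ) S) (R ε : ℝ) (hε : 0 < ε) :
    ∃ N₀ : ℝ, 1 ≤ N₀ ∧ ∀ N, N₀ ≤ N → ∀ᶠ n in (u : Filter ℕ),
      M.hInv (M.hLN (f n) N) (S n) R ε := by
  obtain ⟨C, hC, hah⟩ := M.norm_ah_le
  have hD := (hf 0).nonneg
  set θ := ε / (M.d + 1) / 3 with hθ
  have h0 : 0 < θ := by positivity
  obtain ⟨r₀, h1, h⟩ := M.hc_lf u f hf S hS 3 θ h0
  refine ⟨max r₀ (max (R + 1) ((3 * M.d * D * (C * |R|) + D * (|R| + 1)) / θ)),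
    h1.trans (le_max_left _ _), fun N hN => ?_⟩
  simp only [max_le_iff] at hN
  obtain ⟨n1, n2, n3⟩ := hN
  have hN := h1.trans n1
  filter_upwards [h N n1 N le_rfl] with n hn t ht
  have hL := M.hLN_LM (hf n) hN
  have ht' := ht.trans (le_abs_self R)
  have hb : ∀ x, ‖M.hLN (f n) N x (M.ah t) - (f n (x * t) - f n x)‖ ≤ θ * N := fun x => by
    have b1 : ‖M.hLN (f n) N x (M.ah t)‖ ≤ 3 * M.d * D * (C * |R|) :=
      (ContinuousLinearMap.le_opNorm _ _).trans (mul_le_mul (hL.2 x)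
        ((hah t).1.trans (mul_le_mul_of_nonneg_left ht' (by linarith))) (norm_nonneg _)
        (by positivity))
    have b2 := ((hf n).2 x t).trans (mul_le_mul_of_nonneg_left (add_le_add_left ht' 1) hD)
    rw [div_le_iff₀ h0] at n3
    linarith [norm_sub_le (M.hLN (f n) N x (M.ah t)) (f n (x * t) - f n x)]
  have mq : ∀ i, Measurable (M.hDq (f n) N i) := fun i =>
    (((hf n).1.comp (continuous_mul_const (N • M.hcv i)).measurable).sub (hf n).1).const_smul N⁻¹
  calc _ ≤ ∫⁻ x in S n, ∑ i, ‖M.hDq (f n) N i (x * t) - M.hDq (f n) N i x‖ₑ := by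
        refine lintegral_mono fun x => ?_
        simp only [← ofReal_norm]
        rw [← ENNReal.ofReal_sum_of_nonneg fun _ _ => norm_nonneg _]
        exact ENNReal.ofReal_le_ofReal (M.hLN_sub_le _ _ _ _)
    _ = ∑ i, ∫⁻ x in S n, ‖M.hDq (f n) N i (x * t) - M.hDq (f n) N i x‖ₑ :=
        lintegral_finsetSum _ fun i _ =>
          (((mq i).comp (continuous_mul_const _).measurable).sub (mq i)).enorm
    _ ≤ ∑ _i : Fin M.d, ENNReal.ofReal (3 * θ) * volume (S n) :=
        Finset.sum_le_sum fun i _ => M.hcli_one (hf n).1 hL.1 hN h0 hn (by linarith) hb i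
    _ ≤ _ := by
        rw [← Finset.sum_mul, ← ENNReal.ofReal_sum_of_nonneg fun _ _ => by positivity]
        gcongr
        rw [Finset.sum_const, Finset.card_univ, Fintype.card_fin, nsmul_eq_mul, hθ,
          mul_div_cancel₀ _ three_ne_zero, ← mul_div_assoc, div_le_iff₀ (by positivity)]
        nlinarith

end Vale.Agent.P188.Geo
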