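import Vale.Agent.P188.H.CR2
import Vale.Agent.P188.H.CF
import Vale.Agent.P188.H.LI

/-! Part H: the averaged chain rule. -/

namespace Vale.Agent.P188.Geo
open scoped InnerProductSpace Pointwise
open MeasureTheory Filter Topology
variable (M : Geo)

theorem hccr_mono {D D' : ℝ} {f} (h : M.hCL D f) (hD : D ≤ D') : M.hCL D' f :=
  ⟨h.1, fun x b => (h.2 x b).trans
    (mul_le_mul_of_nonneg_right hD (by linarith [M.ln_nonneg b]))⟩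

theorem hccr_num {C₃ C₀ CF r ε η ε₃ m : ℝ} (h3 : 1 ≤ C₃) (h0 : 1 ≤ C₀) (hF : 1 ≤ CF) (hr : 0 < r)
    (hε : 0 < ε) (hm : 1 ≤ m) (hη : η = ε / (8 * C₃ * C₀ * CF))
    (he : ε₃ = ε / (8 * C₃ * C₀ * (CF * r + 1 + m))) (hm2 : 4 * C₃ * (CF * r + 1) / ε ≤ m) :
    C₃ * (CF * r + 1 + η * m) +
      C₃ * ((m + 1) * (CF / r * (η * r) + (CF * r + 1 + m) * ε₃)) * C₀ ≤ m * ε := by
  have a1 : C₃ * C₀ * CF * η = ε / 8 := by rw [hη]; field_simp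
  have a2 : C₃ * C₀ * ((CF * r + 1 + m) * ε₃) = ε / 8 := by rw [he]; field_simp
  have a3 : CF / r * (η * r) = CF * η := by field_simp
  have a4 : 0 < η := by rw [hη]; positivity
  have a5 : C₃ * η ≤ ε / 8 := by
    have : 1 ≤ C₀ * CF := one_le_mul_of_one_le_of_one_le h0 hF
    have h : 0 ≤ C₃ * η := by positivity
    nlinarith
  rw [div_le_iff₀ hε] at hm2
  have a6 : C₃ * ((m + 1) * (CF / r * (η * r) + (CF * r + 1 + m) * ε₃)) * C₀ =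
      (m + 1) * (C₃ * C₀ * CF * η + C₃ * C₀ * ((CF * r + 1 + m) * ε₃)) := by rw [a3]; ring
  rw [a6, a1, a2]
  nlinarith [mul_le_mul_of_nonneg_right a5 (by linarith : 0 ≤ m)]

theorem hc_cr {K C C' C₀ : ℝ} {u : Ultrafilter ℕ} {φ ψ S S'}
    (h : M.hDual K C C' C₀ (u : Filter ℕ) φ ψ S S') (ε : ℝ) (hε : 0 < ε) :
    ∃ N₀ : ℝ, 1 ≤ N₀ ∧ ∀ N, N₀ ≤ N → ∀ᶠ n in (u : Filter ℕ), ∃ T, MeasurableSet T ∧ T ⊆ S n ∧
      volume (S n \ T) ≤ ENNReal.ofReal ε * volume (S n) ∧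
      (∀ x ∈ T, ∀ ω ∈ M.Q, φ n x * ω ∈ S' n) ∧
      ∀ i, ∫⁻ x in T, ∫⁻ ω in M.Q, ‖M.hcv i - M.hLN (fun y => M.ah (ψ n y)) N (φ n x * ω)
        (M.hLN (fun y => M.ah (φ n y)) N x (M.hcv i))‖ₑ ≤ ENNReal.ofReal ε * volume (S n) := by
  obtain ⟨D₁, -, d1⟩ := M.hCL_ah K C
  obtain ⟨D₂, -, d2⟩ := M.hCL_ah K C'
  have f1 : ∀ n, M.hCL (max D₁ D₂) fun y => M.ah (φ n y) := fun n =>
    M.hccr_mono (d1 _ (h.qφ n)) (le_max_left _ _)
  have f2 : ∀ n, M.hCL (max D₁ D₂) fun y => M.ah (ψ n y) := fun n =>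
    M.hccr_mono (d2 _ (h.qψ n)) (le_max_right _ _)
  obtain ⟨C₃, hC₃, h3⟩ := M.hc_cr2 K C C' (3 * M.d * max D₁ D₂)
  obtain ⟨CF, hCF, h4⟩ := M.hc_cf (K + C + 2)
  have h0 := h.one_le
  obtain ⟨η, hη⟩ : ∃ η, η = ε / (8 * C₃ * C₀ * CF) := ⟨_, rfl⟩
  have η0 : 0 < η := by rw [hη]; positivity
  obtain ⟨r₁, hr₁, l1⟩ := M.hc_lf u _ f1 S h.fol 2 η η0
  obtain ⟨r₂, hr₂, l2⟩ := M.hc_lf u _ f2 S' h.fol' CF η η0
  obtain ⟨r, hr, hr'⟩ : ∃ r, CF ≤ r ∧ r₂ ≤ r := ⟨max CF r₂, le_max_left _ _, le_max_right _ _⟩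
  have r0 : 0 < r := by linarith
  obtain ⟨m, hm⟩ := exists_nat_ge (max r₁ (4 * C₃ * (CF * r + 1) / ε))
  have m1 : r₁ ≤ m := (le_max_left _ _).trans hm
  have m2 := (le_max_right _ _).trans hm
  have m3 : (1 : ℝ) ≤ m := hr₁.trans m1
  obtain ⟨ε₃, he₃⟩ : ∃ ε₃, ε₃ = ε / (8 * C₃ * C₀ * (CF * r + 1 + m)) := ⟨_, rfl⟩
  have e0 : 0 < ε₃ := by rw [he₃]; positivity
  obtain ⟨N₁, hN₁, l3⟩ := M.hc_li u _ f2 S' h.fol' (K + C + 2 + 1) ε₃ e0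
  obtain ⟨F, Bd, hF, hB⟩ := h4 r hr
  refine ⟨max N₁ (max r m), hN₁.trans (le_max_left _ _), fun N hN => ?_⟩
  have n1 : N₁ ≤ N := (le_max_left _ _).trans hN
  have n2 : r ≤ N := ((le_max_left _ _).trans (le_max_right _ _)).trans hN
  have n3 : (m : ℝ) ≤ N := ((le_max_right _ _).trans (le_max_right _ _)).trans hN
  filter_upwards [l1 m m1 N n3, l2 r hr' N n2, l3 N n1, h.ev,
    h.fol.2 (m + 1 + C' + (K + C')) ε hε] with n a1 a2 a3 a4 a5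
  obtain ⟨T, hT, hTS, hv, hcore⟩ := M.hc_core (m + 1 + C' + (K + C')) (h.fol.1 n).1
  have hin : ∀ x ∈ T, ∀ b, M.ln b ≤ m + 1 → ∀ ω ∈ M.Q, φ n (x * b) * ω ∈ S' n := by
    intro x hx b hb ω hω
    rw [a4.1, Set.mem_preimage]
    have e : ψ n (φ n (x * b) * ω) = x * (b * ((x * b)⁻¹ * ψ n (φ n (x * b))) *
        ((ψ n (φ n (x * b)))⁻¹ * ψ n (φ n (x * b) * ω))) := by group
    rw [e]
    refine hcore x hx _ ((M.ln_mul _ _).trans (add_le_add ((M.ln_mul _ _).trans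
      (add_le_add hb (h.inv n _))) ((IsQI.ln_le M (h.qψ n).2 _ _).trans ?_)))
    have := mul_le_mul_of_nonneg_left (M.hc_ln_Q hω) (by linarith [(h.qψ n).2.1] : 0 ≤ K)
    linarith
  refine ⟨T, hT, hTS, hv.trans a5, fun x hx ω hω => ?_, fun i => ?_⟩
  · simpa using hin x hx 1 (by rw [M.ln_one]; positivity) ω hω
  have b1 := h3 (φ n) (ψ n) (h.qφ n) (h.qψ n) (h.inv n) _ _ (M.hLN_LM (f1 n) (m3.trans n3))
    (M.hLN_LM (f2 n) (m3.trans n3)) F Bd (CF * r) (CF / r) hF (by positivity) hB m (S n) (S' n) T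
    (h.fol'.1 n).1 hT hTS hin (η * m) (η * r) ε₃ (by positivity) (by positivity) e0.le
    (fun g hg => a1 g (by linarith)) a2 a3 i
  have mz : (m : ENNReal) ≠ 0 := by
    have : m ≠ 0 := by
      rintro rfl
      norm_num at m3
    exact_mod_cast this
  rw [← ENNReal.mul_le_mul_iff_right mz (ENNReal.natCast_ne_top m)]
  refine (b1.trans (add_le_add_right (mul_le_mul_right a4.2 _) _)).trans ?_
  rw [← mul_assoc, ← add_mul, ← mul_assoc (m : ENNReal), ← ENNReal.ofReal_natCast,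
    ← ENNReal.ofReal_mul (by positivity), ← ENNReal.ofReal_mul (by positivity),
    ← ENNReal.ofReal_add (by positivity) (by positivity)]
  exact mul_le_mul_left (ENNReal.ofReal_le_ofReal
    (hccr_num hC₃ h0 hCF r0 hε m3 hη he₃ m2)) _

end Vale.Agent.P188.Geo
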