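import Vale.Agent.P188.H.CH2

/-! Part H: the pointwise chain rule estimate. -/

namespace Vale.Agent.P188.Geo
open scoped InnerProductSpace Pointwise
open MeasureTheory Filter Topology
variable (M : Geo)

theorem hccr1_near (K C' : ℝ) : ∃ B : ℝ, 0 ≤ B ∧ ∀ φ ψ : M.G → M.G, M.MQI K C' ψ →
    (∀ x, M.ln (x⁻¹ * ψ (φ x)) ≤ C') → ∀ x, ∀ ω ∈ M.Q, ‖M.ah (ψ (φ x * ω)) - M.ah x‖ ≤ B := by
  obtain ⟨D, hD, h1⟩ := M.hCL_ah K C'
  obtain ⟨Ca, hCa, h2⟩ := M.norm_ah_le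
  refine ⟨2 * D + Ca * |C'|, by positivity, fun φ ψ hψ hinv x ω hω => ?_⟩
  have a1 := (h1 ψ hψ).2 (φ x) ω
  have a2 := (h2 (x⁻¹ * ψ (φ x))).1
  rw [← M.qv_ah_sub] at a2
  have a3 := M.hc_ln_Q hω
  have a4 := (hinv x).trans (le_abs_self C')
  have a5 := norm_add_le (M.ah (ψ (φ x * ω)) - M.ah (ψ (φ x))) (M.ah (ψ (φ x)) - M.ah x)
  rw [sub_add_sub_cancel] at a5
  have a6 := mul_le_mul_of_nonneg_left a4 (by linarith : 0 ≤ Ca)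
  have a7 := mul_le_mul_of_nonneg_left a3 (by linarith : 0 ≤ D)
  dsimp only at a1
  linarith

theorem hc_cr1 (K C C' D' : ℝ) : ∃ C₂ : ℝ, 1 ≤ C₂ ∧ ∀ φ ψ, M.MQI K C φ → M.MQI K C' ψ →
    (∀ x, M.ln (x⁻¹ * ψ (φ x)) ≤ C') → ∀ L L' : M.G → (M.G →L[ℝ] M.G), M.hLM D' L' →
    ∀ F Bd ρ, M.hFB F Bd ρ (K + C + 2) → ∀ (m : ℕ) (i : Fin M.d) (x : M.G), ∀ ω ∈ M.Q,
      (m : ENNReal) * ‖M.hcv i - L' (φ x * ω) (L x (M.hcv i))‖ₑ ≤
        ENNReal.ofReal (C₂ * (ρ + 1)) +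
        ENNReal.ofReal C₂ * ‖M.hErr (fun y => M.ah (φ y)) L x ((m : ℝ) • M.hcv i)‖ₑ +
        ∑ j ∈ Finset.range (m + 1),
          (M.hrb (fun y => M.ah (ψ y)) L' F Bd (φ (x * ((j : ℝ) • M.hcv i)) * ω) +
            ENNReal.ofReal (C₂ * (ρ + 1 + m)) *
              M.hsig L' (K + C + 2 + 1) (φ (x * ((j : ℝ) • M.hcv i)) * ω)) := by
  obtain ⟨D, hD, h1⟩ := M.hCL_ah K C'
  obtain ⟨Cc, hCc, h2⟩ := M.hc_chain D D' (K + C + 2)
  obtain ⟨B, hB, h3⟩ := M.hccr1_near K C'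
  have hD' := abs_nonneg D'
  refine ⟨Cc + 2 * B + |D'|, by linarith, fun φ ψ hφ hψ hinv L L' hL' F Bd ρ hF m i x ω hω => ?_⟩
  obtain ⟨c, hc⟩ : ∃ c, c = M.hcv i := ⟨_, rfl⟩
  have hcu : c ∈ M.u0 := hc ▸ M.hcv_u0 i
  have hc1 : ‖c‖ ≤ 1 := hc ▸ M.norm_hcv i
  have hca : M.ah c = c := hc ▸ M.ah_hcv i
  rw [← hc]
  have hρ := hF.nonneg
  have hK := hφ.2.1
  have b1 := h2 _ L' (h1 ψ hψ) hL' F Bd ρ hF m (fun j => φ (x * ((j : ℝ) • c)) * ω) fun j _ => by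
    have e1 : x * (((j + 1 : ℕ) : ℝ) • c) = x * ((j : ℝ) • c) * c := by
      have := M.smul_mul_smul (Or.inr hcu) (j : ℝ) 1
      rw [one_smul] at this
      rw [mul_assoc, this, Nat.cast_succ]
    have e2 : (φ (x * ((j : ℝ) • c)) * ω)⁻¹ * (φ (x * (((j + 1 : ℕ) : ℝ) • c)) * ω) =
        ω⁻¹ * ((φ (x * ((j : ℝ) • c)))⁻¹ * φ (x * ((j : ℝ) • c) * c)) * ω := by
      rw [e1]; group
    have a1 := IsQI.ln_le M hφ.2 (x * ((j : ℝ) • c)) c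
    have a2 := mul_le_mul_of_nonneg_left (M.ln_le_one hc1) (by linarith : 0 ≤ K)
    have a3 := M.hc_ln_Q hω
    have a4 := M.ln_mul (ω⁻¹ * ((φ (x * ((j : ℝ) • c)))⁻¹ * φ (x * ((j : ℝ) • c) * c))) ω
    have a5 := M.ln_mul ω⁻¹ ((φ (x * ((j : ℝ) • c)))⁻¹ * φ (x * ((j : ℝ) • c) * c))
    rw [M.ln_inv] at a5
    rw [e2]
    linarith
  have e0 : x * (((0 : ℕ) : ℝ) • c) = x := by
    rw [Nat.cast_zero, zero_smul, ← M.one_def, mul_one]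
  rw [e0] at b1
  obtain ⟨z, hz⟩ : ∃ z, z = x * ((m : ℝ) • c) := ⟨_, rfl⟩
  have ez : M.ah z - M.ah x = (m : ℝ) • c := by
    rw [hz, M.ah_mul, map_smul, hca, add_sub_cancel_left]
  have e1 : (m : ℝ) • (c - L' (φ x * ω) (L x c)) =
      M.hErr (fun y => M.ah (ψ y)) L' (φ x * ω) ((φ x * ω)⁻¹ * (φ (x * ((m : ℝ) • c)) * ω)) +
      L' (φ x * ω) (M.hErr (fun y => M.ah (φ y)) L x ((m : ℝ) • c)) -
      (M.ah (ψ (φ z * ω)) - M.ah z) + (M.ah (ψ (φ x * ω)) - M.ah x) := by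
    simp only [hErr]
    rw [mul_inv_cancel_left, ← M.qv_ah_sub, M.ah_mul, M.ah_mul, ← hz, smul_sub, map_smul, hca]
    nth_rewrite 1 [← ez]
    simp only [map_smul, map_sub, map_add]
    abel
  obtain ⟨E', hE'⟩ : ∃ E', E' = M.hErr (fun y => M.ah (ψ y)) L' (φ x * ω)
    ((φ x * ω)⁻¹ * (φ (x * ((m : ℝ) • c)) * ω)) := ⟨_, rfl⟩
  obtain ⟨E, hE⟩ : ∃ E, E = M.hErr (fun y => M.ah (φ y)) L x ((m : ℝ) • c) := ⟨_, rfl⟩
  rw [← hE'] at b1 e1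
  rw [← hE] at e1 ⊢
  have r1 : (m : ℝ) * ‖c - L' (φ x * ω) (L x c)‖ ≤ ‖E'‖ + 2 * B + (Cc + 2 * B + |D'|) * ‖E‖ := by
    have a0 := congrArg norm e1
    rw [norm_smul, Real.norm_natCast] at a0
    have a1 := h3 φ ψ hψ hinv z ω hω
    have a2 := h3 φ ψ hψ hinv x ω hω
    have a3 := ((L' (φ x * ω)).le_opNorm E).trans (mul_le_mul_of_nonneg_right
      ((hL'.2 _).trans (by linarith [le_abs_self D'] : D' ≤ Cc + 2 * B + |D'|)) (norm_nonneg E))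
    have a4 := norm_add_le (E' + L' (φ x * ω) E - (M.ah (ψ (φ z * ω)) - M.ah z))
      (M.ah (ψ (φ x * ω)) - M.ah x)
    have a5 := norm_sub_le (E' + L' (φ x * ω) E) (M.ah (ψ (φ z * ω)) - M.ah z)
    have a6 := norm_add_le E' (L' (φ x * ω) E)
    linarith
  have r2 := ENNReal.ofReal_le_ofReal r1
  rw [ENNReal.ofReal_mul (Nat.cast_nonneg m), ENNReal.ofReal_natCast,
    ENNReal.ofReal_add (by positivity) (by positivity),
    ENNReal.ofReal_add (norm_nonneg _) (by positivity),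
    ENNReal.ofReal_mul (p := Cc + 2 * B + |D'|) (by positivity),
    ofReal_norm, ofReal_norm, ofReal_norm] at r2
  refine r2.trans ?_
  have r3 : ENNReal.ofReal (Cc * (ρ + 1)) + ENNReal.ofReal (2 * B) ≤
      ENNReal.ofReal ((Cc + 2 * B + |D'|) * (ρ + 1)) := by
    rw [← ENNReal.ofReal_add (by positivity) (by positivity)]
    exact ENNReal.ofReal_le_ofReal (by nlinarith)
  have r4 : ENNReal.ofReal (Cc * (ρ + 1 + m)) ≤
      ENNReal.ofReal ((Cc + 2 * B + |D'|) * (ρ + 1 + m)) :=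
    ENNReal.ofReal_le_ofReal (mul_le_mul_of_nonneg_right (by linarith) (by positivity))
  rw [add_right_comm (ENNReal.ofReal ((Cc + 2 * B + |D'|) * (ρ + 1)))]
  refine add_le_add_left ((add_le_add_left b1 _).trans ?_) _
  rw [add_right_comm]
  exact add_le_add r3 (Finset.sum_le_sum fun j _ => add_le_add_right (mul_le_mul_left r4 _) _)

end Vale.Agent.P188.Geo
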