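import Vale.Agent.P188.H.CR1

/-! Part H: the integrated chain rule estimate. -/

namespace Vale.Agent.P188.Geo
open scoped InnerProductSpace Pointwise
open MeasureTheory Filter Topology
variable (M : Geo)

theorem hccr2_int {T Q : Set M.G} (m : ℕ) (W : M.G → M.G → ENNReal) (A B : ENNReal)
    (e : M.G → ENNReal) (he : Measurable e) (h : ℕ → M.G × M.G → ENNReal)
    (hh : ∀ j, Measurable (h j)) (hQ : MeasurableSet Q)
    (hW : ∀ x, ∀ ω ∈ Q, m * W x ω ≤ A + B * e x + ∑ j ∈ Finset.range (m + 1), h j (x, ω)) :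
    (m : ENNReal) * ∫⁻ x in T, ∫⁻ ω in Q, W x ω ≤
      (A * volume T + B * ∫⁻ x in T, e x) * volume Q +
        ∑ j ∈ Finset.range (m + 1), ∫⁻ x in T, ∫⁻ ω in Q, h j (x, ω) := by
  have hm : (m : ENNReal) ≠ ⊤ := ENNReal.natCast_ne_top m
  have a1 : ∀ x, (m : ENNReal) * ∫⁻ ω in Q, W x ω ≤
      (A + B * e x) * volume Q + ∑ j ∈ Finset.range (m + 1), ∫⁻ ω in Q, h j (x, ω) := fun x => by
    rw [← lintegral_const_mul' _ _ hm]
    refine (setLIntegral_mono' hQ (hW x)).trans (le_of_eq ?_)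
    rw [lintegral_add_left measurable_const, setLIntegral_const,
      lintegral_finsetSum (f := fun j ω => h j (x, ω)) _
        fun j _ => (hh j).comp measurable_prodMk_left]
  rw [← lintegral_const_mul' _ _ hm]
  refine (lintegral_mono a1).trans (le_of_eq ?_)
  have m1 : Measurable fun x => A + B * e x := measurable_const.add (he.const_mul B)
  rw [lintegral_add_left (m1.mul_const _), lintegral_mul_const _ m1,
    lintegral_add_left measurable_const, setLIntegral_const, lintegral_const_mul _ he,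
    lintegral_finsetSum _ fun j _ => (hh j).lintegral_prod_right']

theorem hc_cr2 (K C C' D' : ℝ) : ∃ C₃ : ℝ, 1 ≤ C₃ ∧ ∀ φ ψ, M.MQI K C φ → M.MQI K C' ψ →
    (∀ x, M.ln (x⁻¹ * ψ (φ x)) ≤ C') → ∀ L L' : M.G → (M.G →L[ℝ] M.G), M.hLM D' L → M.hLM D' L' →
    ∀ F Bd ρ θ, M.hFB F Bd ρ (K + C + 2) → 0 ≤ θ → volume Bd ≤ ENNReal.ofReal θ * volume F →
    ∀ (m : ℕ) (S S' T : Set M.G), MeasurableSet S' → MeasurableSet T → T ⊆ S →
    (∀ x ∈ T, ∀ b, M.ln b ≤ m + 1 → ∀ ω ∈ M.Q, φ (x * b) * ω ∈ S') →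
    ∀ ε₁ ε₂ ε₃ : ℝ, 0 ≤ ε₁ → 0 ≤ ε₂ → 0 ≤ ε₃ → M.hLF (fun y => M.ah (φ y)) L S (m + 1) ε₁ →
    M.hLF (fun y => M.ah (ψ y)) L' S' ρ ε₂ → M.hInv L' S' (K + C + 2 + 1) ε₃ → ∀ i,
      (m : ENNReal) * ∫⁻ x in T, ∫⁻ ω in M.Q, ‖M.hcv i - L' (φ x * ω) (L x (M.hcv i))‖ₑ ≤
        ENNReal.ofReal (C₃ * (ρ + 1 + ε₁)) * volume S +
        ENNReal.ofReal (C₃ * ((m + 1) * (θ * ε₂ + (ρ + 1 + m) * ε₃))) * volume S' := by
  obtain ⟨C₂, hC₂, h1⟩ := M.hc_cr1 K C C' D'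
  obtain ⟨Cp, hCp, h2⟩ := M.hc_pb K C
  obtain ⟨V, hV, h3⟩ := M.hsig_int (K + C + 2 + 1)
  obtain ⟨q, hq0, hq⟩ : ∃ q : ℝ, 0 ≤ q ∧ volume M.Q = ENNReal.ofReal q :=
    ⟨(volume M.Q).toReal, ENNReal.toReal_nonneg, (ENNReal.ofReal_toReal M.hc_vol_Q.2).symm⟩
  have p1 : 1 ≤ C₂ * V := one_le_mul_of_one_le_of_one_le hC₂ hV
  have p2 : 1 ≤ Cp * (C₂ * V) := one_le_mul_of_one_le_of_one_le hCp p1
  have p3 : 0 ≤ C₂ * q := by positivity
  refine ⟨C₂ * q + Cp * (C₂ * V), by linarith, fun φ ψ hφ hψ hinv L L' hL hL' F Bd ρ θ hF hθ hB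
    m S S' T hS' hT hTS hin ε₁ ε₂ ε₃ he₁ he₂ he₃ l1 l2 l3 i => ?_⟩
  have hρ := hF.nonneg
  have mf : Measurable fun y => M.ah (φ y) := M.ah.continuous.measurable.comp hφ.1
  have mf' : Measurable fun y => M.ah (ψ y) := M.ah.continuous.measurable.comp hψ.1
  obtain ⟨g, hg⟩ : ∃ g : M.G → ENNReal, g = fun y => M.hrb (fun y => M.ah (ψ y)) L' F Bd y +
    ENNReal.ofReal (C₂ * (ρ + 1 + m)) * M.hsig L' (K + C + 2 + 1) y := ⟨_, rfl⟩
  have mg : Measurable g := by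
    rw [hg]
    exact (M.hrb_meas mf' hL'.1 F Bd).add ((M.hsig_meas hL'.1 _).const_mul _)
  have lnj : ∀ j : ℕ, j ≤ m → M.ln ((j : ℝ) • M.hcv i) ≤ m + 1 := fun j hj => by
    have := M.hc_ln_smul (M.hcv_u0 i) (M.norm_hcv i) (j : ℝ)
    rw [Nat.abs_cast] at this
    have h : (j : ℝ) ≤ m := by exact_mod_cast hj
    linarith
  have b1 := M.hccr2_int (T := T) m
    (fun x ω => ‖M.hcv i - L' (φ x * ω) (L x (M.hcv i))‖ₑ) (ENNReal.ofReal (C₂ * (ρ + 1)))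
    (ENNReal.ofReal C₂) (fun x => ‖M.hErr (fun y => M.ah (φ y)) L x ((m : ℝ) • M.hcv i)‖ₑ)
    ((M.hErr_meas mf hL.1).comp (measurable_id.prodMk measurable_const)).enorm
    (fun j p => g (φ (p.1 * ((j : ℝ) • M.hcv i)) * p.2))
    (fun j => mg.comp ((hφ.1.comp (measurable_fst.mul_const _)).mul measurable_snd))
    M.hc_meas_Q fun x ω hω => by
      rw [hg]
      exact h1 φ ψ hφ hψ hinv L L' hL' F Bd ρ hF m i x ω hω
  refine b1.trans (add_le_add ?_ ?_)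
  · have a1 := (lintegral_mono_set hTS).trans (l1 _ (lnj m le_rfl))
    have a2 : volume T ≤ volume S := measure_mono hTS
    refine (mul_le_mul_left (add_le_add (mul_le_mul_right a2 _) (mul_le_mul_right a1 _)) _).trans ?_
    rw [← mul_assoc, ← add_mul, mul_right_comm, hq, ← ENNReal.ofReal_mul (by linarith),
      ← ENNReal.ofReal_add (by positivity) (by positivity), ← ENNReal.ofReal_mul (by positivity)]
    refine mul_le_mul_left (ENNReal.ofReal_le_ofReal ?_) _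
    have : 0 ≤ Cp * (C₂ * V) * (ρ + 1 + ε₁) := by positivity
    nlinarith
  · have a1 : ∫⁻ y in S', g y ≤
        ENNReal.ofReal (θ * ε₂ + C₂ * (ρ + 1 + m) * (V * ε₃)) * volume S' := by
      rw [hg, lintegral_add_left (M.hrb_meas mf' hL'.1 F Bd),
        lintegral_const_mul _ (M.hsig_meas hL'.1 _),
        ENNReal.ofReal_add (by positivity) (by positivity), add_mul,
        ENNReal.ofReal_mul (p := C₂ * (ρ + 1 + m)) (by positivity), mul_assoc]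
      exact add_le_add (M.hrb_int mf' hL'.1 hF hθ hB l2) (mul_le_mul_right (h3 L' hL'.1 S' ε₃ l3) _)
    have a2 : ∀ j ∈ Finset.range (m + 1), ∫⁻ x in T, ∫⁻ ω in M.Q,
        g (φ (x * ((j : ℝ) • M.hcv i)) * ω) ≤ ENNReal.ofReal Cp *
          (ENNReal.ofReal (θ * ε₂ + C₂ * (ρ + 1 + m) * (V * ε₃)) * volume S') := fun j hj =>
      (h2 φ hφ g mg T S' hT hS' _ fun x hx ω hω =>
        hin x hx _ (lnj j (Nat.lt_succ_iff.1 (Finset.mem_range.1 hj))) ω hω).trans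
        (mul_le_mul_right a1 _)
    refine (Finset.sum_le_card_nsmul _ _ _ a2).trans ?_
    rw [Finset.card_range, nsmul_eq_mul, ← ENNReal.ofReal_natCast, ← mul_assoc, ← mul_assoc,
      ← ENNReal.ofReal_mul (by positivity), ← ENNReal.ofReal_mul (by positivity)]
    refine mul_le_mul_left (ENNReal.ofReal_le_ofReal ?_) _
    push_cast
    have c1 : 0 ≤ θ * ε₂ := by positivity
    have c2 : 0 ≤ (ρ + 1 + m) * ε₃ := by positivity
    have c3 : θ * ε₂ + C₂ * (ρ + 1 + m) * (V * ε₃) ≤ C₂ * V * (θ * ε₂ + (ρ + 1 + m) * ε₃) := by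
      nlinarith
    have c4 : 0 ≤ C₂ * q * ((m + 1) * (θ * ε₂ + (ρ + 1 + m) * ε₃)) := by positivity
    have c5 := mul_le_mul_of_nonneg_left c3 (by positivity : 0 ≤ ((m : ℝ) + 1) * Cp)
    nlinarith

end Vale.Agent.P188.Geo
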