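import Vale.Agent.P188.H.Basic

/-! Part H: the colour of a linear map. -/

namespace Vale.Agent.P188.Geo
open scoped InnerProductSpace Pointwise
open MeasureTheory Filter Topology
variable (M : Geo)

theorem hccol_sep : ∃ κ₀ : ℝ, 0 < κ₀ ∧ ∀ κ : ℝ, κ ≤ κ₀ → ∀ w ∈ M.W, ∀ w' ∈ M.W, ∀ T T',
    T ∈ M.hNb κ w → T' ∈ M.hNb κ w' → ‖T - T'‖ ≤ κ₀ → w = w' := by
  obtain ⟨c, hc, hsep⟩ := M.W_sep
  obtain ⟨ι, -, hι⟩ := M.exists_sec
  obtain ⟨CA, hCA, hA⟩ := M.hc_norm_A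
  obtain ⟨E, hE, hb⟩ : ∃ E : ℝ, 0 < E ∧ ∀ s, ‖ι s‖ ≤ E * ‖s‖ :=
    ⟨‖LinearMap.toContinuousLinearMap ι‖ + 1, by positivity, fun s => by
      have := (LinearMap.toContinuousLinearMap ι).le_opNorm s
      rw [LinearMap.coe_toContinuousLinearMap'] at this
      nlinarith [norm_nonneg s]⟩
  obtain ⟨k, hk, hk'⟩ : ∃ k : ℝ, 0 < k ∧ (2 + CA) * k * E = c :=
    ⟨c / ((2 + CA) * E), by positivity, by field_simp⟩
  refine ⟨k, hk, fun κ hκ w hw w' hw' T T' hT hT' h => hsep w hw w' hw' fun s => ?_⟩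
  have h1 := hT _ (M.hc_ah_ab (ι s))
  have h2 := hT' _ (M.hc_ah_ab (ι s))
  rw [M.A_ah, hι] at h1 h2
  have h3 := (M.hc_norm_ah (ι s)).trans (hb s)
  generalize M.ah (ι s) = v at h1 h2 h3
  have h4 := (hA ((T - T') v)).trans (mul_le_mul_of_nonneg_left (((T - T').le_opNorm v).trans
    (mul_le_mul_of_nonneg_right h (norm_nonneg _))) (by linarith))
  have h5 : w s - w' s = M.A ((T - T') v) - (M.A (T v) - w s) + (M.A (T' v) - w' s) := by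
    simp only [sub_apply, map_sub]
    abel
  have h6 := (norm_add_le _ _).trans (add_le_add (norm_sub_le_of_le h4 h1) h2)
  have h7 := mul_le_mul_of_nonneg_right hκ (norm_nonneg v)
  have h8 : (2 + CA) * k * ‖v‖ ≤ (2 + CA) * k * (E * ‖s‖) :=
    mul_le_mul_of_nonneg_left h3 (by positivity)
  rw [h5, ← hk']
  linarith

theorem hc_col : ∃ κ₀ : ℝ, 0 < κ₀ ∧ ∀ κ : ℝ, κ ≤ κ₀ →
    ∃ col : (M.G →L[ℝ] M.G) → (M.V ≃ₗᵢ[ℝ] M.V), (∀ T, col T ∈ M.W) ∧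
      (∀ w, MeasurableSet {T | col T = w}) ∧ MeasurableSet {T | ∃ w ∈ M.W, T ∈ M.hNb κ w} ∧
      (∀ T, (∃ w ∈ M.W, T ∈ M.hNb κ w) → T ∈ M.hNb κ (col T)) ∧
      ∀ T T', (∃ w ∈ M.W, T ∈ M.hNb κ w) → (∃ w ∈ M.W, T' ∈ M.hNb κ w) → ‖T - T'‖ ≤ κ₀ →
        col T = col T' := by
  classical
  obtain ⟨κ₀, hκ₀, hsep⟩ := M.hccol_sep
  refine ⟨κ₀, hκ₀, fun κ hκ => ?_⟩
  obtain ⟨col, h1, h2⟩ : ∃ col : (M.G →L[ℝ] M.G) → (M.V ≃ₗᵢ[ℝ] M.V),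
      (∀ T, (∃ w ∈ M.W, T ∈ M.hNb κ w) → col T ∈ M.W ∧ T ∈ M.hNb κ (col T)) ∧
      ∀ T, (¬ ∃ w ∈ M.W, T ∈ M.hNb κ w) → col T = 1 :=
    ⟨fun T => if h : ∃ w ∈ M.W, T ∈ M.hNb κ w then h.choose else 1,
      fun T h => by simpa only [dif_pos h] using h.choose_spec, fun T h => dif_neg h⟩
  have hW : ∀ T, col T ∈ M.W := fun T => by
    by_cases h : ∃ w ∈ M.W, T ∈ M.hNb κ w
    · exact (h1 T h).1
    · exact h2 T h ▸ M.one_mem_W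
  have hm : MeasurableSet {T | ∃ w ∈ M.W, T ∈ M.hNb κ w} := by
    have := M.W_finite.measurableSet_biUnion fun w _ => (M.hNb_closed κ w).measurableSet
    convert this using 1
    ext T
    simp
  refine ⟨col, hW, fun w => ?_, hm, fun T h => (h1 T h).2, fun T T' h h' hT =>
    hsep κ hκ _ (hW T) _ (hW T') T T' (h1 T h).2 (h1 T' h').2 hT⟩
  have he : {T | col T = w} = ({_T | w ∈ M.W} ∩ M.hNb κ w) ∪
      ({_T | 1 = w} ∩ {T | ∃ w ∈ M.W, T ∈ M.hNb κ w}ᶜ) := by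
    ext T
    by_cases h : ∃ w ∈ M.W, T ∈ M.hNb κ w
    · refine ⟨fun e => Or.inl (e ▸ h1 T h), ?_⟩
      rintro (e | e)
      · exact hsep κ hκ _ (hW T) _ e.1 T T (h1 T h).2 e.2 (by simpa using hκ₀.le)
      · exact absurd h e.2
    · refine ⟨fun e => Or.inr ⟨(h2 T h).symm.trans e, h⟩, ?_⟩
      rintro (e | e)
      · exact absurd ⟨w, e⟩ h
      · exact (h2 T h).trans e.1
  rw [he]
  exact ((MeasurableSet.const _).inter (M.hNb_closed κ w).measurableSet).union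
    ((MeasurableSet.const _).inter hm.compl)

end Vale.Agent.P188.Geo
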