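import Vale.Agent.P188.S.Main
import Vale.Agent.P188.GNS

/-! Part H: definitions. -/

namespace Vale.Agent.P188.Geo
open scoped InnerProductSpace Pointwise
open MeasureTheory Filter Topology
variable (M : Geo)

/-- Measurable coarsely Lipschitz maps. -/
def hCL (D : ℝ) (f : M.G → M.G) : Prop :=
  Measurable f ∧ ∀ x b, ‖f (x * b) - f x‖ ≤ D * (M.ln b + 1)

/-- Bounded measurable fields of linear maps. -/
def hLM (D : ℝ) (L : M.G → (M.G →L[ℝ] M.G)) : Prop := Measurable L ∧ ∀ x, ‖L x‖ ≤ D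

/-- A spanning family of `ab`. -/
noncomputable def hcv (i : Fin M.d) : M.G := M.ah (M.X i)

/-- Difference quotient at scale `N`. -/
noncomputable def hDq (f : M.G → M.G) (N : ℝ) (i : Fin M.d) (x : M.G) : M.G :=
  N⁻¹ • (f (x * (N • M.hcv i)) - f x)

/-- Coarse derivative at scale `N`. -/
noncomputable def hLN (f : M.G → M.G) (N : ℝ) (x : M.G) : M.G →L[ℝ] M.G :=
  ∑ i, (LinearMap.toContinuousLinearMap (M.co i)).smulRight (M.hDq f N i x)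

/-- Error of the linear approximation. -/
noncomputable def hErr (f : M.G → M.G) (L : M.G → (M.G →L[ℝ] M.G)) (x g : M.G) : M.G :=
  f (x * g) - f x - L x (M.ah g)

/-- Mean linear approximation on `S` up to radius `ρ`. -/
def hLF (f : M.G → M.G) (L : M.G → (M.G →L[ℝ] M.G)) (S : Set M.G) (ρ ε : ℝ) : Prop :=
  ∀ g, M.ln g ≤ ρ → ∫⁻ x in S, ‖M.hErr f L x g‖ₑ ≤ ENNReal.ofReal ε * volume S

/-- Mean invariance on `S` up to radius `ρ`. -/
def hInv (L : M.G → (M.G →L[ℝ] M.G)) (S : Set M.G) (ρ ε : ℝ) : Prop :=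
  ∀ t, M.ln t ≤ ρ → ∫⁻ x in S, ‖L (x * t) - L x‖ₑ ≤ ENNReal.ofReal ε * volume S

/-- The word ball. -/
def hBl (R : ℝ) : Set M.G := {g | M.ln g ≤ R}

/-- Local oscillation of `L`. -/
noncomputable def hsig (L : M.G → (M.G →L[ℝ] M.G)) (R : ℝ) (y : M.G) : ENNReal :=
  (∫⁻ t in M.hBl R, ‖L (y * t) - L y‖ₑ) / volume M.Q

/-- Boundary term of the smoothing. -/
noncomputable def hrb (f : M.G → M.G) (L : M.G → (M.G →L[ℝ] M.G)) (F Bd : Set M.G) (y : M.G) :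
    ENNReal :=
  (∫⁻ g in Bd, ‖M.hErr f L y g⁻¹‖ₑ) / volume F

/-- Linear maps that almost do not decrease `Psi`. -/
def hPG (κ : ℝ) : Set (M.G →L[ℝ] M.G) :=
  {T | ∀ v ∈ M.ab, M.Psi (M.A v) - κ * ‖v‖ ≤ M.Psi (M.A (T v))}

/-- Linear maps close to `w` on heights. -/
def hNb (κ : ℝ) (w : M.V ≃ₗᵢ[ℝ] M.V) : Set (M.G →L[ℝ] M.G) :=
  {T | ∀ v ∈ M.ab, ‖M.A (T v) - w (M.A v)‖ ≤ κ * ‖v‖}

/-- A smoothing set `F` of radius `ρ` with a measurable set `Bd` containing its `R`-boundary. -/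
structure hFB (F Bd : Set M.G) (ρ R : ℝ) : Prop where
  mF : MeasurableSet F
  mB : MeasurableSet Bd
  ne0 : volume F ≠ 0
  neT : volume F ≠ ⊤
  nonneg : 0 ≤ ρ
  sF : F ⊆ M.hBl ρ
  sB : Bd ⊆ M.hBl ρ
  bd : M.bd R F ⊆ Bd

/-- The family of smoothing sets. -/
def hF (ρ r a : ℝ) : Set M.G :=
  {g | M.eᗮ.starProjection g ∈ a • (M.eᗮ.starProjection '' M.Z r) ∧
    g * (M.eᗮ.starProjection g)⁻¹ ∈ a • M.K (fun _ => ρ)}

/-- A sequence of quasi-isometries with Folner sets, and quasi-inverses with Folner sets. -/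
structure hDual (K C C' C₀ : ℝ) (u : Filter ℕ) (φ ψ : ℕ → M.G → M.G) (S S' : ℕ → Set M.G) :
    Prop where
  one_le : 1 ≤ C₀
  qφ : ∀ n, M.MQI K C (φ n)
  qψ : ∀ n, M.MQI K C' (ψ n)
  inv : ∀ n x, M.ln (x⁻¹ * ψ n (φ n x)) ≤ C'
  fol : M.Fol u S
  fol' : M.Fol u S'
  ev : ∀ᶠ n in u, S' n = ψ n ⁻¹' S n ∧ volume (S' n) ≤ ENNReal.ofReal C₀ * volume (S n)

end Vale.Agent.P188.Geo
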