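import Vale.Agent.P188.H.Basic

/-! Part H: additive maps of linear growth on u0 factor linearly through ah. -/

namespace Vale.Agent.P188.Geo
open scoped InnerProductSpace Pointwise
variable (M : Geo) {H : Type} [NormedAddCommGroup H] [InnerProductSpace ℝ H] [CompleteSpace H]

theorem hclin_zero {a α β : ℝ} (ha : 0 ≤ a) (h : ∀ s : ℝ, 0 ≤ s → s ^ 2 * a ≤ α * s + β) :
    a = 0 := by
  by_contra h0
  have hp : 0 < a := lt_of_le_of_ne ha (Ne.symm h0)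
  have h1 : 0 ≤ (|α| + |β| + 1) / a := by positivity
  have h2 := h ((|α| + |β| + 1) / a + 1) (by linarith)
  have h3 : (|α| + |β| + 1) / a * a = |α| + |β| + 1 := div_mul_cancel₀ _ h0
  set u := (|α| + |β| + 1) / a with hu
  have h4 : (u + 1) ^ 2 * a = (u + 1) * (|α| + |β| + 1 + a) := by
    rw [← h3]; ring
  have h5 := le_abs_self α
  have h6 := le_abs_self β
  have h7 := abs_nonneg β
  rw [h4] at h2
  nlinarith

omit [CompleteSpace H] in
theorem hclin_hom (ψ : ℝ →+ H) {C : ℝ} (h : ∀ t : ℝ, 0 ≤ t → t ≤ 1 → ‖ψ t‖ ≤ C) (t : ℝ) :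
    ψ t = t • ψ 1 := by
  have key : ∀ n : ℕ, (n : ℝ) * ‖ψ t - t • ψ 1‖ ≤ C + ‖ψ 1‖ := fun n => by
    have h1 : ψ (n * t) = ψ (Int.fract (n * t)) + (⌊n * t⌋ : ℝ) • ψ 1 := by
      rw [Int.cast_smul_eq_zsmul, ← map_zsmul, ← map_add, zsmul_eq_mul, mul_one, Int.fract_add_floor]
    have h2 : ψ (n * t) = (n : ℝ) • ψ t := by
      rw [Nat.cast_smul_eq_nsmul, ← map_nsmul, nsmul_eq_mul]
    have h3 : (n : ℝ) • (ψ t - t • ψ 1) = ψ (Int.fract (n * t)) - Int.fract (n * t) • ψ 1 := by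
      rw [smul_sub, ← h2, h1, smul_smul, Int.fract, sub_smul]
      abel
    have h4 := congrArg norm h3
    rw [norm_smul, Real.norm_natCast] at h4
    rw [h4]
    have h5 := Int.fract_nonneg ((n : ℝ) * t)
    have h6 := (Int.fract_lt_one ((n : ℝ) * t)).le
    refine (norm_sub_le _ _).trans (add_le_add (h _ h5 h6) ?_)
    rw [norm_smul, Real.norm_of_nonneg h5]
    exact mul_le_of_le_one_left (norm_nonneg _) h6
  by_contra h0
  have hp : 0 < ‖ψ t - t • ψ 1‖ := norm_pos_iff.2 (sub_ne_zero.2 h0)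
  obtain ⟨n, hn⟩ := exists_nat_gt ((C + ‖ψ 1‖) / ‖ψ t - t • ψ 1‖)
  rw [div_lt_iff₀ hp] at hn
  exact absurd (key n) (not_le.2 hn)

/-- Elements of `u0` that are quadratically distorted. -/
noncomputable def hclinS : Submodule ℝ M.G where
  carrier := {x | x ∈ M.u0 ∧ ∃ C : ℝ, 0 ≤ C ∧ ∀ s : ℝ, 0 ≤ s → (s ^ 2) • x ∈ M.Z (C * s)}
  zero_mem' := ⟨M.u0.zero_mem, 0, le_rfl, fun s _ => by
    rw [smul_zero]; exact (M.Z_isLB _).sc.zero_mem⟩
  add_mem' := by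
    rintro x y ⟨hx, C, hC, h⟩ ⟨hy, C', hC', h'⟩
    refine ⟨M.u0.add_mem hx hy, (1 + 1) * (C + C'), by positivity, fun s hs => ?_⟩
    have h1 : (s ^ 2) • x ∈ M.Z ((C + C') * s) :=
      M.Z_mono (by positivity) (by nlinarith) (h s hs)
    have h2 : (s ^ 2) • y ∈ M.Z ((C + C') * s) :=
      M.Z_mono (by positivity) (by nlinarith) (h' s hs)
    rw [smul_add, mul_assoc]
    exact M.smul_Z_subset (by norm_num)
      ((M.Z_isLB _).sc.add_mem zero_le_one zero_le_one (M.lb_one h1) (M.lb_one h2))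
  smul_mem' := by
    rintro a x ⟨hx, C, hC, h⟩
    refine ⟨M.u0.smul_mem a hx, (|a| + 1) * C, by positivity, fun s hs => ?_⟩
    rw [smul_comm, mul_assoc]
    exact M.smul_Z_subset (by linarith [abs_nonneg a])
      ((M.Z_isLB _).sc.smul_mem_smul zero_le_one (M.lb_one (h s hs)) (by linarith))

theorem hclin_B : ∀ y ∈ M.u0, ∀ z ∈ M.u0, M.B y z ∈ M.hclinS := by
  intro y hy z hz
  obtain ⟨C, hC, h⟩ := M.mem_Z
  refine ⟨M.B_u0 hy hz, C * (‖y‖ + ‖z‖), by positivity, fun s hs => ?_⟩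
  have key : ∀ w ∈ M.u0, ‖w‖ ≤ ‖y‖ + ‖z‖ → s • w ∈ M.Z (C * (‖y‖ + ‖z‖) * s) := fun w hw hn => by
    refine M.Z_mono (by positivity) ?_ (h _ (M.u0.smul_mem s hw))
    rw [norm_smul, Real.norm_of_nonneg hs, mul_assoc, mul_comm s]
    gcongr
  have h1 := (M.Z_isLB _).lie _ (key y hy (by linarith [norm_nonneg z])) _
    (key z hz (by linarith [norm_nonneg y]))
  simpa only [map_smul, LinearMap.smul_apply, smul_smul, sq] using h1

theorem hclin_st {x y : M.G} (hx : x ∈ M.u0) (hy : y ∈ M.u0) : x * y - x - y ∈ M.hclinS := by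
  rw [M.mul_eq_st (Or.inr hy)]
  exact M.bchG.mem M.u0 M.hclinS (fun _ h _ h' => M.B_u0 h h') M.hclin_B hx hy

/-- The coordinate projection onto `u0`. -/
noncomputable def hclinP : M.G →ₗ[ℝ] M.G := by
  classical
  exact ∑ i, if M.wt i = 0 then (M.co i).smulRight (M.X i) else 0

theorem hclin_co (x : M.G) (j) : (M.wt j = 0 → M.co j (M.hclinP x) = M.co j x) ∧
    (M.wt j ≠ 0 → M.co j (M.hclinP x) = 0) := by
  classical
  have h : M.co j (M.hclinP x) = if M.wt j = 0 then M.co j x else 0 := by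
    rw [hclinP, LinearMap.sum_apply, map_sum, Finset.sum_eq_single j]
    · split_ifs <;> simp [co_X]
    · intro i _ hi
      split_ifs <;> simp [co_X, hi.symm]
    · simp
  rw [h]
  exact ⟨fun h => if_pos h, fun h => if_neg h⟩

theorem hclinP_u0 (x : M.G) : M.hclinP x ∈ M.u0 := M.mem_u0.2 fun i hi => (M.hclin_co x i).2 hi

theorem hclinP_e (x : M.G) : x - M.hclinP x ∈ M.e :=
  M.lie_mem_e fun i hi => by rw [map_sub, (M.hclin_co x i).1 hi, sub_self]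

theorem hclinP_self {x : M.G} (hx : x ∈ M.u0) : M.hclinP x = x :=
  M.ext_co fun i => by
    by_cases hi : M.wt i = 0
    · exact (M.hclin_co x i).1 hi
    · rw [(M.hclin_co x i).2 hi, M.mem_u0.1 hx i hi]

theorem hc_lin (ℓ : M.G → H) {D : ℝ}
    (h1 : ∀ g ∈ M.u0, ∀ h ∈ M.u0, ℓ (g * h) = ℓ g + ℓ h)
    (h2 : ∀ g ∈ M.u0, ‖ℓ g‖ ≤ D * (M.ln g + 1)) :
    ∃ Λ : M.G →ₗ[ℝ] H, (∀ x ∈ M.u0, ℓ x = Λ x) ∧ ∀ x, Λ (M.ah x) = Λ x := by
  have hD : 0 ≤ D := by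
    have := h2 1 M.u0.zero_mem
    rw [M.ln_one] at this
    linarith [norm_nonneg (ℓ 1)]
  have h2' : ∀ g ∈ M.u0, ∀ R, M.ln g ≤ R → ‖ℓ g‖ ≤ D * (R + 1) := fun g hg R hR =>
    (h2 g hg).trans (by gcongr)
  have hs : ∀ x ∈ M.u0, ∀ t : ℝ, ℓ (t • x) = t • ℓ x := fun x hx t => by
    have h := hclin_hom (AddMonoidHom.mk' (fun t : ℝ => ℓ (t • x)) fun s t => by
      rw [← M.smul_mul_smul (Or.inr hx), h1 _ (M.u0.smul_mem _ hx) _ (M.u0.smul_mem _ hx)])
      (C := D * (‖x‖ + 1 + 1)) (fun t h0 h1 => by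
        refine h2' _ (M.u0.smul_mem _ hx) _ ((M.ln_tame (Or.inr (M.u0.smul_mem _ hx))).trans ?_)
        rw [norm_smul, Real.norm_of_nonneg h0]
        nlinarith [norm_nonneg x]) t
    simpa using h
  have hS : ∀ x ∈ M.hclinS, ℓ x = 0 := by
    rintro x ⟨hx, C, hC, h⟩
    obtain ⟨C', -, h'⟩ := M.ln_Z
    refine norm_eq_zero.1 (hclin_zero (α := D * C' * C) (β := D * (C' + 1)) (norm_nonneg _)
      fun s hs0 => ?_)
    have h3 := h2' _ (M.u0.smul_mem _ hx) _ (h' _ (by positivity) _ (h s hs0))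
    rw [hs x hx, norm_smul, Real.norm_of_nonneg (by positivity)] at h3
    linarith
  have hE : ∀ x ∈ M.u0, x ∈ M.e → ℓ x = 0 := fun x hx he => by
    obtain ⟨C, hC, h⟩ := M.ball_subset_K
    obtain ⟨C', hC', h'⟩ := M.ln_K (C * ‖x‖) (by positivity)
    refine norm_eq_zero.1 (hclin_zero (α := 2 * D * C') (β := 2 * D * (C' + 1)) (norm_nonneg _)
      fun s hs0 => ?_)
    have h3 : Real.exp s • x ∈ (C * ‖x‖) • M.K (fun _ => s) := by
      obtain ⟨y, hy, hxy⟩ := h x he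
      refine ⟨Real.exp s • y, M.smul_K_subset hs0 (fun i _ => by simp) ⟨y, hy, rfl⟩, ?_⟩
      show (C * ‖x‖) • Real.exp s • y = Real.exp s • x
      rw [smul_comm]
      exact congrArg _ hxy
    have h4 := h2' _ (M.u0.smul_mem _ hx) _ (h' _ s hs0 (fun i _ => le_rfl) _ h3)
    rw [hs x hx, norm_smul, Real.norm_of_nonneg (by positivity)] at h4
    have h5 := Real.quadratic_le_exp_of_nonneg hs0
    have h6 := mul_le_mul_of_nonneg_right h5 (norm_nonneg (ℓ x))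
    have h7 := mul_nonneg hs0 (norm_nonneg (ℓ x))
    nlinarith [norm_nonneg (ℓ x)]
  have hw : ∀ x ∈ M.u0, ∀ w ∈ M.hclinS, ℓ (x + w) = ℓ x := fun x hx w hw => by
    have h3 : x + w ∈ M.u0 := M.u0.add_mem hx hw.1
    have h4 := M.hclinS.add_mem (M.hclin_st (M.inv_mem_u0 hx) h3) hw
    have h5 : x⁻¹ * (x + w) - x⁻¹ - (x + w) + w = x⁻¹ * (x + w) := by
      nth_rewrite 2 [M.inv_eq_neg (Or.inr hx)]
      abel
    rw [h5] at h4
    have h6 := h1 x hx _ h4.1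
    rwa [mul_inv_cancel_left, hS _ h4, add_zero] at h6
  have ha : ∀ x ∈ M.u0, ∀ y ∈ M.u0, ℓ (x + y) = ℓ x + ℓ y := fun x hx y hy => by
    rw [← h1 x hx y hy, ← hw _ (M.u0.add_mem hx hy) _ (M.hclin_st hx hy)]
    congr 1
    abel
  let Λ : M.G →ₗ[ℝ] H :=
    { toFun := fun x => ℓ (M.hclinP x)
      map_add' := fun x y => by rw [map_add, ha _ (M.hclinP_u0 x) _ (M.hclinP_u0 y)]
      map_smul' := fun t x => by rw [map_smul, hs _ (M.hclinP_u0 x), RingHom.id_apply] }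
  have hΛ : ∀ x ∈ M.u0, ℓ x = Λ x := fun x hx => congrArg ℓ (M.hclinP_self hx).symm
  have hΛe : ∀ x ∈ M.e, Λ x = 0 := fun x hx => hE _ (M.hclinP_u0 x) (by
    simpa using M.e.sub_mem hx (M.hclinP_e x))
  have hΛB : ∀ x y, Λ (M.B x y) = 0 := fun x y => by
    have h3 : M.B x y = M.B (M.hclinP x) (M.hclinP y) +
        (M.B (x - M.hclinP x) y + M.B (M.hclinP x) (y - M.hclinP y)) := by
      simp only [map_sub, LinearMap.sub_apply]
      abel
    have h4 := M.hclin_B _ (M.hclinP_u0 x) _ (M.hclinP_u0 y)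
    rw [h3, map_add, ← hΛ _ h4.1, hS _ h4, zero_add]
    exact hΛe _ (M.e.add_mem (M.lie_B_e (M.hclinP_e x) y) (M.B_e _ (M.hclinP_e y)))
  refine ⟨Λ, hΛ, fun x => ?_⟩
  have h3 : M.e ⊔ Submodule.span ℝ {z | ∃ x y, z = M.B x y} ≤ LinearMap.ker Λ :=
    sup_le hΛe (Submodule.span_le.2 (by
      rintro _ ⟨x, y, rfl⟩
      exact hΛB x y))
  have h4 := h3 (M.lie_sub_proj _ x)
  rw [LinearMap.mem_ker, map_sub, sub_eq_zero] at h4
  exact h4.symm

end Vale.Agent.P188.Geo
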