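import Vale.Agent.P188.H.Basic

/-! Part H: the Mautner argument. -/

namespace Vale.Agent.P188.Geo
open scoped InnerProductSpace Pointwise
variable (M : Geo) {H : Type} [NormedAddCommGroup H] [InnerProductSpace ℝ H] [CompleteSpace H]

theorem hc_letter : ∃ C : ℝ, 1 ≤ C ∧ ∀ i, M.wt i ≠ 0 → ∀ ρ τ t : ℝ, 0 ≤ ρ → 0 ≤ τ →
    ∀ ζ ∈ M.Z ρ, |t| ≤ Real.exp (M.wv (M.A ζ) i + τ) →
      M.ln (ζ⁻¹ * (t • M.X i) * ζ) ≤ C * (τ + Real.log (2 + ρ)) := by
  obtain ⟨C, hC, h⟩ := M.ln_conj_K 1 zero_le_one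
  refine ⟨C, hC, fun i hi ρ τ t hρ hτ ζ hζ ht => ?_⟩
  exact h (fun i => M.wv (M.A ζ) i + τ) ρ τ hρ hτ
    (fun j k hjk => by simp only [M.wv_wtFun (M.A ζ) j k hjk]) ζ hζ (fun _ _ => le_rfl) _
    (M.lb_one (M.X_mem_K hi ht))

theorem hcmaut_le {a α β : ℝ} (h : ∀ s : ℝ, 0 ≤ s → s * a ≤ s * α + β) : a ≤ α := by
  by_contra h0
  have hp : 0 < a - α := sub_pos.2 (not_le.1 h0)
  have h1 := h ((|β| + 1) / (a - α)) (by positivity)
  have h2 : (|β| + 1) / (a - α) * (a - α) = |β| + 1 := div_mul_cancel₀ _ hp.ne'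
  have h3 := le_abs_self β
  nlinarith

theorem hcmaut_log {η u : ℝ} (hη : 0 < η) (hu : 0 < u) : Real.log u ≤ η * u - Real.log η := by
  have h := Real.log_le_sub_one_of_pos (mul_pos hη hu)
  rw [Real.log_mul hη.ne' hu.ne'] at h
  linarith

omit [CompleteSpace H] in
theorem hcmaut_letter (π : M.G →* (H ≃ₗᵢ[ℝ] H)) (b : M.G → H)
    (hb : ∀ g h, b (g * h) = b g + π g (b h)) {D : ℝ} (hD : ∀ g, ‖b g‖ ≤ D * (M.ln g + 1))
    (Λ : M.G →ₗ[ℝ] H)
    (h3 : ∀ η : ℝ, 0 < η → ∃ B : ℝ, ∀ ρ : ℝ, 0 ≤ ρ → ∀ ζ ∈ M.Z ρ, ‖b ζ - Λ ζ‖ ≤ η * ρ + B)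
    {c : M.G} (hc : c ∈ M.u0) {i} (hi : M.wt i ≠ 0) (hw : 0 ≤ M.wv (M.A c) i) (t : ℝ) :
    π (t • M.X i) (Λ c) = Λ c := by
  have hD0 : 0 ≤ D := by
    have := hD 1
    rw [M.ln_one] at this
    linarith [norm_nonneg (b 1)]
  obtain ⟨C, hC, hZ⟩ := M.mem_Z
  obtain ⟨C', hC', hL⟩ := M.hc_letter
  set y := t • M.X i with hy
  set κ := C * ‖c‖ with hκ
  have hκ0 : 0 ≤ κ := by positivity
  have hτ : 0 ≤ Real.log (1 + |t|) := Real.log_nonneg (by linarith [abs_nonneg t])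
  have key : ∀ η : ℝ, 0 < η → ‖π y (Λ c) - Λ c‖ ≤ η * ((2 + D * C') * κ) := fun η hη => by
    obtain ⟨B, hB⟩ := h3 η hη
    refine hcmaut_le (β := 2 * B + D * (C' * (Real.log (1 + |t|) + (η * 2 - Real.log η)) + 1) +
      ‖b y‖) fun s hs => ?_
    have h4 : s • c ∈ M.Z (κ * s) := by
      have := hZ _ (M.u0.smul_mem s hc)
      rwa [norm_smul, Real.norm_of_nonneg hs, mul_comm s, ← mul_assoc] at this
    have h5 : |t| ≤ Real.exp (M.wv (M.A (s • c)) i + Real.log (1 + |t|)) := by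
      have h6 : 0 ≤ M.wv (M.A (s • c)) i := by
        rw [map_smul, wv, inner_smul_right]
        exact mul_nonneg hs hw
      rw [Real.exp_add, Real.exp_log (by positivity)]
      nlinarith [Real.one_le_exp h6, abs_nonneg t]
    have h6 := hL i hi _ _ t (by positivity) hτ _ h4 h5
    have h7 := hB _ (by positivity) _ h4
    rw [← hy] at h6
    set ζ := s • c with hζ
    set y' := ζ⁻¹ * y * ζ with hy'
    have h8 : b y + π y (b ζ) = b ζ + π ζ (b y') := by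
      rw [← hb, ← hb, hy', mul_assoc, mul_inv_cancel_left]
    have h9 : s • (π y (Λ c) - Λ c) =
        (b ζ - Λ ζ) - π y (b ζ - Λ ζ) + (π ζ (b y') - b y) := by
      have h10 : Λ ζ = s • Λ c := map_smul Λ s c
      rw [map_sub, eq_sub_of_add_eq' h8, h10, (π y).map_smul, smul_sub]
      abel
    have h10 := congrArg norm h9
    rw [norm_smul, Real.norm_of_nonneg hs] at h10
    have h11 := norm_add_le ((b ζ - Λ ζ) - π y (b ζ - Λ ζ)) (π ζ (b y') - b y)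
    have h12 := norm_sub_le (b ζ - Λ ζ) (π y (b ζ - Λ ζ))
    have h13 := norm_sub_le (π ζ (b y')) (b y)
    rw [LinearIsometryEquiv.norm_map] at h12 h13
    have h14 := hcmaut_log hη (show 0 < 2 + κ * s by positivity)
    have h15 : ‖b y'‖ ≤ D * (C' * (Real.log (1 + |t|) + (η * (2 + κ * s) - Real.log η)) + 1) :=
      (hD y').trans (mul_le_mul_of_nonneg_left (by
        have := mul_le_mul_of_nonneg_left h14 (by linarith : 0 ≤ C')
        linarith) hD0)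
    rw [h10]
    linarith
  by_contra h0
  have hp : 0 < ‖π y (Λ c) - Λ c‖ := norm_pos_iff.2 (sub_ne_zero.2 h0)
  have h4 : 0 ≤ (2 + D * C') * κ := by positivity
  have h5 := key (‖π y (Λ c) - Λ c‖ / ((2 + D * C') * κ + 1)) (by positivity)
  rw [div_mul_eq_mul_div, le_div_iff₀ (by positivity)] at h5
  nlinarith

theorem hc_maut (π : M.G →* (H ≃ₗᵢ[ℝ] H)) (b : M.G → H)
    (hb : ∀ g h, b (g * h) = b g + π g (b h)) {D : ℝ} (hD : ∀ g, ‖b g‖ ≤ D * (M.ln g + 1))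
    (Λ : M.G →ₗ[ℝ] H) (h1 : ∀ x, Λ (M.ah x) = Λ x) (h2 : ∀ g ∈ M.u0, ∀ x, π g (Λ x) = Λ x)
    (h3 : ∀ η : ℝ, 0 < η → ∃ B : ℝ, ∀ ρ : ℝ, 0 ≤ ρ → ∀ ζ ∈ M.Z ρ, ‖b ζ - Λ ζ‖ ≤ η * ρ + B) :
    ∀ g x, π g (Λ x) = Λ x := by
  intro g x
  have hl : ∀ i, M.wt i ≠ 0 → ∀ t : ℝ, π (t • M.X i) (Λ x) = Λ x := fun i hi t => by
    rw [← h1 x]
    rcases le_total 0 (M.wv (M.A (M.ah x)) i) with h | h
    · exact M.hcmaut_letter π b hb hD Λ h3 (M.ah_mem_u0 x) hi h t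
    · have h4 := M.hcmaut_letter π b hb hD Λ h3 (M.u0.neg_mem (M.ah_mem_u0 x)) hi (by
        rw [map_neg, wv, inner_neg_right]
        exact neg_nonneg.2 h) t
      rw [map_neg, map_neg] at h4
      exact neg_injective h4
  have he : ∀ y ∈ M.e, π y (Λ x) = Λ x := fun y hy => by
    obtain ⟨C, hC, h⟩ := M.ball_subset_K
    obtain ⟨N, C', -, h'⟩ := M.hc_sub_gen (C * ‖y‖) (by positivity)
    have h4 := h' (fun g => ‖π g (Λ x) - Λ x‖) (by simp) (fun g h => by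
        have h5 : π (g * h) (Λ x) - Λ x = (π g (Λ x) - Λ x) + π g (π h (Λ x) - Λ x) := by
          rw [map_mul, map_sub, LinearIsometryEquiv.coe_mul, Function.comp_apply]
          abel
        rw [h5]
        exact (norm_add_le _ _).trans (by rw [LinearIsometryEquiv.norm_map]))
      (fun i => M.wt i ≠ 0) (fun i => Real.exp ((0 : Fin M.d → ℝ) i)) 0 le_rfl
      (Or.inl (by
        rintro _ ⟨i, hi, rfl⟩
        rw [map_smul, M.A_X i hi, smul_zero]))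
      (fun i hi u _ => by rw [smul_smul, hl i hi, sub_self, norm_zero]) y (h y hy)
    rw [mul_zero] at h4
    exact sub_eq_zero.1 (norm_le_zero_iff.1 h4)
  rw [← inv_mul_cancel_right g (M.eᗮ.starProjection g), map_mul, LinearIsometryEquiv.coe_mul,
    Function.comp_apply, h2 _ (M.len_proj_u0 g), he _ (M.mul_proj_inv_mem_e g)]

end Vale.Agent.P188.Geo
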