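import Vale.Agent.P188.H.SubZ
import Vale.Agent.P188.H.Lin
import Vale.Agent.P188.H.Maut

/-! Part H: cocycles are linear up to a sublinear error. -/

namespace Vale.Agent.P188.Geo
open scoped InnerProductSpace Pointwise
variable (M : Geo) {H : Type} [NormedAddCommGroup H] [InnerProductSpace ℝ H] [CompleteSpace H]

omit [InnerProductSpace ℝ H] [CompleteSpace H] in
theorem hcht_nonneg {b : M.G → H} {D : ℝ} (hD : ∀ g, ‖b g‖ ≤ D * (M.ln g + 1)) : 0 ≤ D := by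
  have := (norm_nonneg _).trans (hD 1)
  rwa [M.ln_one, zero_add, mul_one] at this

theorem hcht_letter (ν : M.G → ℝ) (hm : ∀ g h, ν (g * h) ≤ ν g + ν h) (hi : ∀ g, ν g⁻¹ = ν g)
    {D : ℝ} (hD0 : 0 ≤ D) (hD : ∀ g, ν g ≤ D * (M.ln g + 1))
    (h3 : ∀ η : ℝ, 0 < η → ∃ B : ℝ, ∀ ρ : ℝ, 0 ≤ ρ → ∀ ζ ∈ M.Z ρ, ν ζ ≤ η * ρ + B)
    {C η : ℝ} (hC : 1 ≤ C) (hη : 0 < η) : ∃ B : ℝ, ∀ τ : ℝ, 0 ≤ τ → ∀ i, M.wt i ≠ 0 →
      ∀ u : ℝ, |u| ≤ C → ν (u • Real.exp τ • M.X i) ≤ η * τ + B := by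
  obtain ⟨ι, hι, hιA⟩ := M.exists_sec
  obtain ⟨CZ, hZ1, hZ⟩ := M.mem_Z
  obtain ⟨L, hL1, hL⟩ := M.hc_letter
  set κ : ℝ := CZ * ∑ i, ‖ι ((‖M.wt i‖ ^ 2)⁻¹ • M.wt i)‖ with hκ
  have hκ0 : 0 ≤ κ := mul_nonneg (by linarith) (Finset.sum_nonneg fun _ _ => norm_nonneg _)
  set θ : ℝ := η / ((2 + D * L) * (κ + 1)) with hθ
  have hθ0 : 0 < θ := by positivity
  have hθ1 : (2 + D * L) * (κ + 1) * θ = η := by rw [hθ]; field_simp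
  obtain ⟨B, hB⟩ := h3 θ hθ0
  refine ⟨2 * B + D * (L * (Real.log C + 2 * θ - Real.log θ) + 1), fun τ hτ i hw u hu => ?_⟩
  have hζ : τ • ι ((‖M.wt i‖ ^ 2)⁻¹ • M.wt i) ∈ M.Z (κ * τ) := by
    refine M.Z_mono (by positivity) ?_ (hZ _ (M.u0.smul_mem τ (hι _)))
    rw [norm_smul, Real.norm_of_nonneg hτ, hκ, mul_assoc, mul_comm τ]
    exact mul_le_mul_of_nonneg_left (mul_le_mul_of_nonneg_right (Finset.single_le_sum
      (f := fun i => ‖ι ((‖M.wt i‖ ^ 2)⁻¹ • M.wt i)‖) (fun _ _ => norm_nonneg _)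
      (Finset.mem_univ i)) hτ) (by linarith)
  have hv : M.wv (M.A (τ • ι ((‖M.wt i‖ ^ 2)⁻¹ • M.wt i))) i = τ := by
    have := norm_pos_iff.2 hw
    rw [map_smul, hιA, wv, inner_smul_right, inner_smul_right, real_inner_self_eq_norm_sq]
    field_simp
  have h1 := hL i hw (κ * τ) (Real.log C) (u * Real.exp τ) (by positivity) (Real.log_nonneg hC) _
    hζ (by
      rw [hv, Real.exp_add, Real.exp_log (by linarith), abs_mul, abs_of_pos (Real.exp_pos τ),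
        mul_comm]
      exact mul_le_mul_of_nonneg_left hu (Real.exp_pos τ).le)
  have h2 := hB _ (by positivity) _ hζ
  rw [smul_smul]
  generalize τ • ι ((‖M.wt i‖ ^ 2)⁻¹ • M.wt i) = ζ at h1 h2
  generalize (u * Real.exp τ) • M.X i = y at h1 ⊢
  have h4 := hm (ζ * (ζ⁻¹ * y * ζ)) ζ⁻¹
  rw [show ζ * (ζ⁻¹ * y * ζ) * ζ⁻¹ = y by group, hi] at h4
  have h5 := hm ζ (ζ⁻¹ * y * ζ)
  have h6 := Real.log_le_sub_one_of_pos (show 0 < θ * (2 + κ * τ) by positivity)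
  rw [Real.log_mul hθ0.ne' (by positivity)] at h6
  have h7 : M.ln (ζ⁻¹ * y * ζ) + 1 ≤ L * (Real.log C + 2 * θ - Real.log θ + θ * (κ * τ)) + 1 :=
    add_le_add_left (h1.trans (mul_le_mul_of_nonneg_left (by linarith) (by linarith))) 1
  have h8 := (hD _).trans (mul_le_mul_of_nonneg_left h7 hD0)
  have h9 : 0 ≤ (2 + D * L) * θ * τ := by positivity
  rw [← hθ1]
  linarith

theorem hc_ht0 (π : M.G →* (H ≃ₗᵢ[ℝ] H)) (b : M.G → H)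
    (hb : ∀ g h, b (g * h) = b g + π g (b h)) {D : ℝ} (hD : ∀ g, ‖b g‖ ≤ D * (M.ln g + 1))
    (h3 : ∀ η : ℝ, 0 < η → ∃ B : ℝ, ∀ ρ : ℝ, 0 ≤ ρ → ∀ ζ ∈ M.Z ρ, ‖b ζ‖ ≤ η * ρ + B)
    (η : ℝ) (hη : 0 < η) : ∃ B : ℝ, ∀ g, ‖b g‖ ≤ η * M.ln g + B := by
  have h1 : b 1 = 0 := by
    have := hb 1 1
    rw [mul_one, left_eq_add, map_eq_zero_iff _ (π 1).injective] at this
    exact this
  have hm : ∀ g h, ‖b (g * h)‖ ≤ ‖b g‖ + ‖b h‖ := fun g h => by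
    rw [hb, ← (π g).norm_map (b h)]
    exact norm_add_le _ _
  have hi : ∀ g, ‖b g⁻¹‖ = ‖b g‖ := fun g => by
    have := hb g g⁻¹
    rw [mul_inv_cancel, h1] at this
    rw [← (π g).norm_map, eq_neg_of_add_eq_zero_right this.symm, norm_neg]
  have hD0 := M.hcht_nonneg hD
  obtain ⟨N, C, hC1, hN⟩ := M.hc_sub_gen 1 zero_le_one
  obtain ⟨F, hF1, hF⟩ := M.nf_of_ln
  have hη' : 0 < η / ((N + 1) * F) := by positivity
  obtain ⟨B, hB⟩ := M.hcht_letter (fun g => ‖b g‖) hm hi hD0 hD h3 hC1 hη'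
  obtain ⟨B', hB'⟩ := h3 _ hη'
  refine ⟨η + N * |B| + B', fun g => ?_⟩
  obtain ⟨x, hx, ζ, hζ, e⟩ := hF g _ le_rfl
  have hτ : 0 ≤ F * (M.ln g + 1) := by have := M.ln_nonneg g; positivity
  have h4 := hN (fun g => ‖b g‖) (by simp [h1]) hm (fun i => M.wt i ≠ 0)
    (fun _ => Real.exp (F * (M.ln g + 1))) (η / ((N + 1) * F) * (F * (M.ln g + 1)) + |B|)
    (by positivity) (M.tame_of_e (by
      rintro _ ⟨i, hi, rfl⟩
      exact M.e.smul_mem _ (M.X_mem_e hi)))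
    (fun i hi u hu => (hB _ hτ i hi u hu).trans (add_le_add_right (le_abs_self B) _)) x
    (M.lb_one hx)
  have h5 := hB' _ hτ ζ hζ
  have h6 := hm x ζ
  rw [← e] at h6
  have h7 : (N + 1) * (η / ((N + 1) * F) * (F * (M.ln g + 1))) = η * (M.ln g + 1) := by
    field_simp
  linarith

theorem hc_ht (π : M.G →* (H ≃ₗᵢ[ℝ] H)) (b : M.G → H)
    (hb : ∀ g h, b (g * h) = b g + π g (b h)) {D : ℝ} (hD : ∀ g, ‖b g‖ ≤ D * (M.ln g + 1)) :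
    ∃ Λ : M.G →ₗ[ℝ] H, (∀ x, Λ (M.ah x) = Λ x) ∧
      ∀ η : ℝ, 0 < η → ∃ B : ℝ, ∀ g, ‖b g - Λ g‖ ≤ η * M.ln g + B := by
  obtain ⟨ℓ, l1, l2, l3, l4⟩ := M.hc_subZ π b hb hD
  obtain ⟨Λ, k1, k2⟩ := M.hc_lin ℓ l1 fun g _ => (l3 g).trans (hD g)
  have k3 : ∀ η : ℝ, 0 < η → ∃ B : ℝ, ∀ ρ : ℝ, 0 ≤ ρ → ∀ ζ ∈ M.Z ρ, ‖b ζ - Λ ζ‖ ≤ η * ρ + B := by
    intro η hη
    obtain ⟨B, hB⟩ := l4 η hη
    exact ⟨B, fun ρ hρ ζ hζ => k1 ζ (M.Z_sub_u0 ρ hζ) ▸ hB ρ hρ ζ hζ⟩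
  have k4 := M.hc_maut π b hb hD Λ k2
    (fun g hg x => by rw [← k2 x, ← k1 _ (M.ah_mem_u0 x), l2 g hg]) k3
  obtain ⟨C, hC1, hC⟩ := M.norm_ah_le
  have hD0 := M.hcht_nonneg hD
  refine ⟨Λ, k2, M.hc_ht0 π (fun g => b g - Λ g) (fun g h => ?_) (D := D * (C + 3))
    (fun g => ?_) k3⟩
  · rw [hb, map_sub, k4, ← k2 (g * h), M.ah_mul, map_add, k2, k2]
    abel
  · have h1 := norm_sub_le (b g) (Λ g)
    have h2 := (l3 (M.ah g)).trans (hD _)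
    rw [k1 _ (M.ah_mem_u0 g), k2] at h2
    have h3 : M.ln (M.ah g) + 1 ≤ C * M.ln g + 2 := by
      linarith [M.ln_tame (Or.inr (M.ah_mem_u0 g)), (hC g).1]
    have h4 := mul_le_mul_of_nonneg_left h3 hD0
    have h5 := mul_nonneg hD0 (M.ln_nonneg g)
    have h6 := mul_nonneg hD0 (zero_le_one.trans hC1)
    nlinarith [hD g]

end Vale.Agent.P188.Geo
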