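import Vale.Agent.P188.H.Basic

/-! Part H: the dual sequence. -/

namespace Vale.Agent.P188.Geo
open scoped InnerProductSpace Pointwise
open MeasureTheory Filter Topology
variable (M : Geo)

theorem hcinv_bdQ (R : ℝ) (S : Set M.G) : M.bd R S * M.Q ⊆ M.bd (R + 1) S := by
  rintro _ ⟨y, ⟨⟨b, h1, h2⟩, ⟨b', h3, h4⟩⟩, q, hq, rfl⟩
  have key : ∀ c, M.ln c ≤ R → M.ln (q⁻¹ * c) ≤ R + 1 := fun c hc => by
    have := M.ln_mul q⁻¹ c
    rw [M.ln_inv] at this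
    linarith [M.hc_ln_Q hq]
  exact ⟨⟨q⁻¹ * b, key b h1, by simpa [mul_assoc] using h2⟩,
    ⟨q⁻¹ * b', key b' h3, by simpa [mul_assoc] using h4⟩⟩

theorem hcinv_bd {K C ψ} (h : IsQI M.Q M.Q K C ψ) (R : ℝ) (S : Set M.G) :
    M.bd R (ψ ⁻¹' S) ⊆ ψ ⁻¹' M.bd (K * R + C) S := by
  rintro x ⟨⟨b, h1, h2⟩, ⟨b', h3, h4⟩⟩
  have key : ∀ c, M.ln c ≤ R → M.ln ((ψ x)⁻¹ * ψ (x * c)) ≤ K * R + C := fun c hc => by
    have := IsQI.ln_le M h x c
    nlinarith [h.1]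
  exact ⟨⟨_, key b h1, by simpa using h2⟩, ⟨_, key b' h3, by simpa using h4⟩⟩

theorem hcinv_low {K C' D : ℝ} {φ ψ : M.G → M.G} (hψ : IsQI M.Q M.Q K C' ψ)
    (hi : ∀ x, M.ln (x⁻¹ * ψ (φ x)) ≤ C')
    (hD : ∀ S : Set M.G, volume (φ ⁻¹' S) ≤ ENNReal.ofReal D * volume (S * M.Q)) {S : Set M.G}
    (hS : MeasurableSet S) (hT : volume S ≠ ⊤)
    (hb : volume (M.bd (K + 2 * C') S) ≤ ENNReal.ofReal (1 / 2) * volume S) :
    volume S ≤ ENNReal.ofReal (2 * D) * volume (ψ ⁻¹' S) := by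
  obtain ⟨T, -, -, h2, h3⟩ := M.hc_core (K + 2 * C') hS
  have h4 : T ⊆ φ ⁻¹' {y | ∀ ω ∈ M.Q, y * ω ∈ ψ ⁻¹' S} := fun x hx ω hω => by
    have h5 := M.ln_mul (x⁻¹ * ψ (φ x)) ((ψ (φ x))⁻¹ * ψ (φ x * ω))
    have h6 := IsQI.ln_le M hψ (φ x) ω
    have h7 := M.hc_ln_Q hω
    have h8 := h3 x hx _ (h5.trans (by nlinarith [hi x, hψ.1]))
    simpa [mul_assoc] using h8
  have h5 : {y | ∀ ω ∈ M.Q, y * ω ∈ ψ ⁻¹' S} * M.Q ⊆ ψ ⁻¹' S := by
    rintro _ ⟨y, hy, q, hq, rfl⟩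
    exact hy q hq
  have h6 : volume T ≤ ENNReal.ofReal D * volume (ψ ⁻¹' S) :=
    (measure_mono h4).trans ((hD _).trans (mul_le_mul_right (measure_mono h5) _))
  have h7 : volume S ≤ volume T + volume (S \ T) :=
    (measure_mono fun x hx => by by_cases h : x ∈ T <;> simp [h, hx]).trans (measure_union_le _ _)
  have h8 : ENNReal.ofReal (1 / 2) * volume S = volume S / 2 := by
    rw [ENNReal.ofReal_div_of_pos two_pos, ENNReal.ofReal_one, ENNReal.ofReal_ofNat,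
      ENNReal.div_eq_inv_mul, mul_one, ENNReal.div_eq_inv_mul]
  have h9 : volume S / 2 ≤ ENNReal.ofReal D * volume (ψ ⁻¹' S) := by
    refine ENNReal.le_of_add_le_add_right (a := volume S / 2)
      (ENNReal.div_ne_top hT two_ne_zero) ?_
    rw [ENNReal.add_halves]
    exact h7.trans (add_le_add h6 (h2.trans (hb.trans h8.le)))
  rw [ENNReal.ofReal_mul two_pos.le, ENNReal.ofReal_ofNat, mul_assoc, mul_comm]
  exact (ENNReal.div_le_iff two_ne_zero ENNReal.ofNat_ne_top).1 h9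

theorem hc_dual (K C : ℝ) (u : Filter ℕ) (φ : ℕ → M.G → M.G) (hφ : ∀ n, M.MQI K C (φ n))
    (S : ℕ → Set M.G) (hS : M.Fol u S) : ∃ C' C₀ ψ S', M.hDual K C C' C₀ u φ ψ S S' := by
  classical
  obtain ⟨C', hinv⟩ := M.exists_inv K C
  choose ψ hψ _ hi using fun n => hinv (φ n) (hφ n).2
  obtain ⟨D, hD1, hD⟩ := M.vol_preimage_le K C
  obtain ⟨D', hD1', hD'⟩ := M.vol_preimage_le K C'
  have e1 : ∀ᶠ n in u, volume (ψ n ⁻¹' S n) ≤ ENNReal.ofReal (D' * 2) * volume (S n) := by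
    filter_upwards [hS.2 1 1 one_pos] with n hn
    refine (hD' _ (hψ n).2 _).trans ?_
    rw [ENNReal.ofReal_mul (by linarith), mul_assoc, ENNReal.ofReal_ofNat, two_mul]
    rw [ENNReal.ofReal_one, one_mul] at hn
    refine mul_le_mul_right ?_ _
    exact (measure_mono (M.hc_mul_subset (R := 1) _ fun _ h => M.hc_ln_Q h)).trans
      ((measure_union_le _ _).trans (add_le_add_right hn _))
  have e2 : ∀ᶠ n in u, volume (S n) ≤ ENNReal.ofReal (2 * D) * volume (ψ n ⁻¹' S n) := by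
    filter_upwards [hS.2 (K + 2 * C') (1 / 2) (by norm_num)] with n hn
    exact M.hcinv_low (hψ n).2 (hi n) (hD _ (hφ n).2) (hS.1 n).1 (hS.1 n).2.1 hn
  let S' : ℕ → Set M.G := fun n =>
    if volume (ψ n ⁻¹' S n) ≠ ⊤ ∧ volume (ψ n ⁻¹' S n) ≠ 0 then ψ n ⁻¹' S n else M.Q
  have e3 : ∀ᶠ n in u, S' n = ψ n ⁻¹' S n := by
    filter_upwards [e1, e2] with n h1 h2
    refine if_pos ⟨ne_top_of_le_ne_top (ENNReal.mul_ne_top ENNReal.ofReal_ne_top (hS.1 n).2.1) h1,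
      fun h0 => (hS.1 n).2.2 ?_⟩
    rwa [h0, mul_zero, nonpos_iff_eq_zero] at h2
  refine ⟨C', D' * 2, ψ, S', by linarith, hφ, hψ, hi, hS, ⟨fun n => ?_, fun R θ hθ => ?_⟩, ?_⟩
  · simp only [S']
    split_ifs with h
    · exact ⟨(hψ n).1 (hS.1 n).1, h⟩
    · exact ⟨M.hc_meas_Q, M.hc_vol_Q.2, M.hc_vol_Q.1⟩
  · filter_upwards [e2, e3, hS.2 (K * R + C' + 1) (θ / (D' * (2 * D))) (by positivity)]
      with n h2 h3 h4
    rw [h3]
    refine (measure_mono (M.hcinv_bd (hψ n).2 R _)).trans ((hD' _ (hψ n).2 _).trans ?_)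
    refine (mul_le_mul_right ((measure_mono (M.hcinv_bdQ _ _)).trans
      (h4.trans (mul_le_mul_right h2 _))) _).trans (le_of_eq ?_)
    rw [← mul_assoc, ← mul_assoc, ← ENNReal.ofReal_mul (by linarith),
      ← ENNReal.ofReal_mul (by positivity)]
    congr 2
    field_simp
  · filter_upwards [e1, e3] with n h1 h3
    exact ⟨h3, h3 ▸ h1⟩

end Vale.Agent.P188.Geo
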