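import Vale.Agent.P188.H.LF1

/-! Part H: linear approximation on balls, and mean invariance of the derivative. -/

namespace Vale.Agent.P188.Geo
open scoped InnerProductSpace Pointwise
open MeasureTheory Filter Topology
variable (M : Geo)

theorem hc_net (ρ : ℝ) : ∃ I : Finset M.G, (∀ a ∈ I, M.ln a ≤ ρ) ∧
    ∀ g, M.ln g ≤ ρ → ∃ a ∈ I, ∃ q ∈ M.Q, g = a * q := by
  obtain ⟨I, hI, hc⟩ := (M.isCompact_ball ρ).elim_nhds_subcover
    (fun a => (fun x => a⁻¹ * x) ⁻¹' M.Q) (fun a _ => by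
      refine (continuous_const.mul continuous_id).continuousAt.preimage_mem_nhds ?_
      show M.Q ∈ 𝓝 (a⁻¹ * a)
      rw [inv_mul_cancel, M.one_def]
      exact Metric.closedBall_mem_nhds _ one_pos)
  refine ⟨I, hI, fun g hg => ?_⟩
  obtain ⟨a, ha, h⟩ := Set.mem_iUnion₂.1 (hc hg)
  exact ⟨a, ha, a⁻¹ * g, h, by rw [mul_inv_cancel_left]⟩

theorem hc_lf (u : Ultrafilter ℕ) {D : ℝ} (f : ℕ → M.G → M.G) (hf : ∀ n, M.hCL D (f n))
    (S : ℕ → Set M.G) (hS : M.Fol (u : Filter ℕ) S) (C₁ η : ℝ) (hη : 0 < η) :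
    ∃ r₀ : ℝ, 1 ≤ r₀ ∧ ∀ r, r₀ ≤ r → ∀ N, r ≤ N → ∀ᶠ n in (u : Filter ℕ),
      M.hLF (f n) (M.hLN (f n) N) (S n) (C₁ * r) (η * r) := by
  have hD := (hf 0).nonneg
  obtain ⟨r₁, hr₁, h1⟩ := M.hc_lf1 u f hf S hS C₁ (η / 2) (by positivity)
  set E := 2 * D + 3 * M.d * D with hE
  have hE0 : 0 ≤ E := by positivity
  refine ⟨max r₁ (2 * E / η), le_max_of_le_left hr₁, fun r hr N hN => ?_⟩
  have hr1 : r₁ ≤ r := (le_max_left _ _).trans hr
  have hr2 : E ≤ η / 2 * r := by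
    have := (le_max_right _ _).trans hr
    rw [div_le_iff₀ hη] at this
    linarith
  obtain ⟨I, hI, hc⟩ := M.hc_net (C₁ * r)
  filter_upwards [(eventually_all_finset I).2 fun a ha => h1 r hr1 N hN a (hI a ha)] with n hn g hg
  obtain ⟨a, ha, q, hq, rfl⟩ := hc g hg
  have hL := M.hLN_LM (hf n) (N := N) (by linarith)
  have hp : ∀ x, ‖M.hErr (f n) (M.hLN (f n) N) x (a * q)‖ₑ ≤
      ‖M.hErr (f n) (M.hLN (f n) N) x a‖ₑ + ENNReal.ofReal (η / 2 * r) := by
    intro x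
    have e : M.hErr (f n) (M.hLN (f n) N) x (a * q) = M.hErr (f n) (M.hLN (f n) N) x a +
        ((f n (x * a * q) - f n (x * a)) - M.hLN (f n) N x (M.ah q)) := by
      simp only [hErr, M.ah_mul, map_add, mul_assoc]
      abel
    have h2 := (hf n).2 (x * a) q
    have h3 := M.hc_ln_Q hq
    have h4 := ((M.hLN (f n) N x).le_opNorm (M.ah q)).trans (mul_le_mul (hL.2 x)
      ((M.hc_norm_ah q).trans (mem_closedBall_zero_iff.1 hq)) (norm_nonneg _) hL.nonneg)
    have h5 := norm_sub_le (f n (x * a * q) - f n (x * a)) (M.hLN (f n) N x (M.ah q))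
    rw [e]
    refine (enorm_add_le _ _).trans (add_le_add le_rfl ?_)
    rw [← ofReal_norm]
    exact ENNReal.ofReal_le_ofReal (by nlinarith)
  refine (lintegral_mono hp).trans ?_
  rw [lintegral_add_right _ measurable_const, setLIntegral_const,
    show η * r = η / 2 * r + η / 2 * r by ring,
    ENNReal.ofReal_add (by linarith) (by linarith), add_mul]
  exact add_le_add (hn a ha) le_rfl

end Vale.Agent.P188.Geo
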