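import Vale.Agent.P188.H.UL2
import Vale.Agent.P188.H.HT

/-! Part H: linear approximation at one element. -/

namespace Vale.Agent.P188.Geo
open scoped InnerProductSpace Pointwise
open MeasureTheory Filter Topology
variable (M : Geo)

theorem hc_lf1 (u : Ultrafilter ℕ) {D : ℝ} (f : ℕ → M.G → M.G) (hf : ∀ n, M.hCL D (f n))
    (S : ℕ → Set M.G) (hS : M.Fol (u : Filter ℕ) S) (C₁ η : ℝ) (hη : 0 < η) :
    ∃ r₀ : ℝ, 1 ≤ r₀ ∧ ∀ r, r₀ ≤ r → ∀ N, r ≤ N → ∀ g, M.ln g ≤ C₁ * r → ∀ᶠ n in (u : Filter ℕ),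
      ∫⁻ x in S n, ‖M.hErr (f n) (M.hLN (f n) N) x g‖ₑ ≤ ENNReal.ofReal (η * r) * volume (S n) := by
  obtain ⟨H, _, _, _, π, b, hb, hD, hul⟩ := M.hc_ul u f hf S hS
  obtain ⟨Λ, hΛ, hht⟩ := M.hc_ht π b hb hD
  obtain ⟨C, hC, hah⟩ := M.norm_ah_le
  obtain ⟨E, hE⟩ : ∃ E : ℝ, E = C * |C₁| := ⟨_, rfl⟩
  have hE0 : 0 ≤ E := by rw [hE]; positivity
  obtain ⟨A, hA⟩ : ∃ A : ℝ, A = 1 + |C₁| + 2 * M.d * E := ⟨_, rfl⟩
  have hdE : 0 ≤ M.d * E := by positivity
  have hA0 : 0 < A := by rw [hA]; positivity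
  obtain ⟨B, hB⟩ := hht (η / (2 * A)) (by positivity)
  obtain ⟨θ, hθ⟩ : ∃ θ, θ = η / (2 * A) := ⟨_, rfl⟩
  have hθ0 : 0 < θ := by rw [hθ]; positivity
  have hθA : θ * A = η / 2 := by rw [hθ]; field_simp
  rw [← hθ] at hB
  refine ⟨1 + 2 * |B| * A / η, le_add_of_nonneg_right (by positivity), fun r hr N hN g hg => ?_⟩
  have hr1 : 1 ≤ r := le_trans (le_add_of_nonneg_right (by positivity)) hr
  have hN0 : 0 < N := by linarith
  have hg' : M.ln g ≤ |C₁| * r := hg.trans (by gcongr; exact le_abs_self _)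
  have hrB : |B| * A < η * r / 2 := by
    have : 2 * |B| * A / η < r := by linarith
    rw [div_lt_iff₀ hη] at this
    linarith
  have key := hul (Option (Fin M.d)) Finset.univ
    (fun k => k.elim 1 fun i => -(M.co i (M.ah g) * N⁻¹)) (fun k => k.elim g fun i => N • M.hcv i)
    (η * r) (by
      have e1 : Λ g = ∑ i, (M.co i (M.ah g) * N⁻¹) • Λ (N • M.hcv i) := by
        rw [← hΛ g, ← hΛ (M.ah g), ← M.hc_sum_hcv (M.ah g), map_sum]
        refine Finset.sum_congr rfl fun i _ => ?_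
        rw [map_smul, map_smul, smul_smul, mul_assoc, inv_mul_cancel₀ hN0.ne', mul_one]
      have e2 : ∑ k : Option (Fin M.d), (k.elim 1 fun i => -(M.co i (M.ah g) * N⁻¹) : ℝ) •
          b (k.elim g fun i => N • M.hcv i) = (b g - Λ g) -
          ∑ i, (M.co i (M.ah g) * N⁻¹) • (b (N • M.hcv i) - Λ (N • M.hcv i)) := by
        rw [Fintype.sum_option]
        simp only [Option.elim, one_smul, neg_smul, smul_sub, Finset.sum_sub_distrib,
          Finset.sum_neg_distrib, ← e1]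
        abel
      rw [e2]
      have h1 : ∀ i ∈ Finset.univ, ‖(M.co i (M.ah g) * N⁻¹) • (b (N • M.hcv i) - Λ (N • M.hcv i))‖
          ≤ E * (2 * θ * r + |B|) := fun i _ => by
        have h2 : |M.co i (M.ah g)| ≤ E * r := by
          refine (M.hc_abs_co i _).trans ((hah g).1.trans ?_)
          rw [hE, mul_assoc]
          gcongr
        have h3 := M.hc_ln_smul (M.hcv_u0 i) (M.norm_hcv i) N
        rw [abs_of_pos hN0] at h3
        have h4 : ‖b (N • M.hcv i) - Λ (N • M.hcv i)‖ ≤ θ * (2 * N) + |B| :=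
          (hB _).trans (add_le_add (by gcongr; linarith) (le_abs_self _))
        have h5 : r * N⁻¹ ≤ 1 := by rw [← div_eq_mul_inv, div_le_one hN0]; exact hN
        rw [norm_smul, Real.norm_eq_abs, abs_mul, abs_of_pos (inv_pos.2 hN0)]
        calc _ ≤ E * r * N⁻¹ * (θ * (2 * N) + |B|) := by gcongr
          _ = E * (2 * θ * r + r * N⁻¹ * |B|) := by field_simp
          _ ≤ _ := by
            gcongr
            exact mul_le_of_le_one_left (abs_nonneg _) h5
      have h6 := (norm_sum_le _ _).trans (Finset.sum_le_card_nsmul _ _ _ h1)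
      rw [Finset.card_univ, Fintype.card_fin, nsmul_eq_mul] at h6
      have h7 : ‖b g - Λ g‖ ≤ θ * (|C₁| * r) + |B| :=
        (hB _).trans (add_le_add (by gcongr) (le_abs_self _))
      have h8 : θ * (|C₁| * r) + M.d * E * (2 * θ * r) ≤ θ * A * r := by
        rw [hA]
        nlinarith [mul_pos hθ0 (show 0 < r by linarith)]
      have h9 : |B| + M.d * E * |B| ≤ |B| * A := by
        rw [hA]
        nlinarith [abs_nonneg B, mul_nonneg (abs_nonneg B) (abs_nonneg C₁),
          mul_nonneg (abs_nonneg B) hdE]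
      refine (norm_sub_le _ _).trans_lt ?_
      rw [hθA] at h8
      nlinarith)
  refine key.mono fun n hn => le_of_eq_of_le ?_ hn
  refine lintegral_congr fun x => ?_
  congr 1
  rw [Fintype.sum_option, hErr, hLN_apply]
  simp only [Option.elim, one_smul, neg_smul, Finset.sum_neg_distrib, hDq, smul_smul,
    sub_eq_add_neg]

end Vale.Agent.P188.Geo
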