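import Vale.Agent.P188.H.Near
import Vale.Agent.P188.H.Col

/-! Part H (sub-project): local colours.  Plan: notes/P188_H.md. -/

namespace Vale.Agent.P188.Geo
open scoped InnerProductSpace Pointwise
open MeasureTheory
variable (M : Geo)

theorem hcmain_add {a b δ : ℝ} {A B V : ENNReal} (ha : 0 ≤ a) (hb : 0 ≤ b) (h : a + b ≤ δ)
    (hA : A ≤ ENNReal.ofReal a * V) (hB : B ≤ ENNReal.ofReal b * V) :
    A + B ≤ ENNReal.ofReal δ * V := by
  refine (add_le_add hA hB).trans ?_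
  rw [← add_mul, ← ENNReal.ofReal_add ha hb]
  exact mul_le_mul_left (ENNReal.ofReal_le_ofReal h) _

theorem hcmain_markov {h : M.G → ENNReal} (hm : Measurable h) {S : Set M.G}
    (hS : MeasurableSet S) {ε a : ℝ} (ha : 0 < a)
    (hi : ∫⁻ x in S, h x ≤ ENNReal.ofReal ε * volume S) :
    volume (S ∩ {x | ¬ h x ≤ ENNReal.ofReal a}) ≤ ENNReal.ofReal (ε / a) * volume S := by
  have h1 := meas_ge_le_lintegral_div (μ := volume.restrict S) hm.aemeasurable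
    (ε := ENNReal.ofReal a) (by simpa using ha) ENNReal.ofReal_ne_top
  rw [Measure.restrict_apply' hS, Set.inter_comm] at h1
  refine le_trans (measure_mono fun x hx => ?_) (h1.trans ?_)
  · exact ⟨hx.1, (not_le.1 hx.2).le⟩
  rw [ENNReal.ofReal_div_of_pos ha, div_eq_mul_inv, div_eq_mul_inv, mul_right_comm]
  exact mul_le_mul_left hi _

theorem local_colour (hO : M.Orth) (K C : ℝ) (u : Ultrafilter ℕ) (φ : ℕ → M.G → M.G)
    (hφ : ∀ n, M.MQI K C (φ n)) (S : ℕ → Set M.G) (hS : M.Fol (u : Filter ℕ) S)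
    (η δ R₀ : ℝ) (hη : 0 < η) (hδ : 0 < δ) :
    ∃ R : ℝ, R₀ ≤ R ∧ ∀ᶠ n in (u : Filter ℕ), ∃ (col : M.G → (M.V ≃ₗᵢ[ℝ] M.V)) (𝒢 : Set M.G),
      (∀ x, col x ∈ M.W) ∧ (∀ w, MeasurableSet {x | col x = w}) ∧ MeasurableSet 𝒢 ∧
      volume (S n \ 𝒢) ≤ ENNReal.ofReal δ * volume (S n) ∧
      (∀ x ∈ 𝒢, ∀ b, M.ln b ≤ 1 → x * b ∈ 𝒢 → col (x * b) = col x) ∧
      ∀ g, M.ln g ≤ R →
        volume (S n ∩ {x | η * R < ‖M.A (φ n (x * g)) - M.A (φ n x) - col x (M.A g)‖}) ≤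
          ENNReal.ofReal δ * volume (S n) := by
  obtain ⟨D, -, hD⟩ := M.hCL_ah K C
  obtain ⟨κ₀, hκ₀, hcol⟩ := M.hc_col
  obtain ⟨Ca, hCa, ha⟩ := M.norm_ah_le
  obtain ⟨CA, hCA, hA⟩ := M.hc_norm_A
  obtain ⟨V, hV, hsi⟩ := M.hsig_int (1 + 1)
  obtain ⟨κ, hκ, hκ1, hκ2⟩ : ∃ κ : ℝ, 0 < κ ∧ κ ≤ κ₀ ∧ κ * Ca ≤ η / 2 :=
    ⟨min κ₀ (η / 2 / Ca), by positivity, min_le_left _ _,
      (le_div_iff₀ (by positivity)).1 (min_le_right _ _)⟩
  obtain ⟨col, c1, c2, c3, c4, c5⟩ := hcol κ hκ1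
  have hf := fun n => hD _ (hφ n)
  obtain ⟨N₁, -, h1⟩ := M.hc_near hO K C u φ hφ S hS κ (δ / 2) hκ (by positivity)
  obtain ⟨N₂, -, h2⟩ := M.hc_li u _ hf S hS (1 + 1) (δ / 2 * (κ₀ / 2) / V) (by positivity)
  obtain ⟨r₀, hr₀, h3⟩ := M.hc_lf u _ hf S hS 1 (δ / 2 * (η / 2 / CA)) (by positivity)
  obtain ⟨R, hR, hR'⟩ : ∃ R, R₀ ≤ R ∧ r₀ ≤ R := ⟨max R₀ r₀, le_max_left _ _, le_max_right _ _⟩
  obtain ⟨N, hN, hN₁, hN₂⟩ : ∃ N, R ≤ N ∧ N₁ ≤ N ∧ N₂ ≤ N :=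
    ⟨max R (max N₁ N₂), by simp, by simp, by simp⟩
  have hR0 : 0 < R := by linarith
  refine ⟨R, hR, ?_⟩
  filter_upwards [h1 N hN₁, h2 N hN₂, h3 R hR' N hN] with n g1 g2 g3
  have hL := (M.hLN_LM (hf n) (N := N) (by linarith)).1
  have hfm := (hf n).1
  generalize M.hLN (fun y => M.ah (φ n y)) N = L at g1 g2 g3 hL
  have hSm := (hS.1 n).1
  have hsm := M.hsig_meas hL (1 + 1)
  refine ⟨fun x => col (L x), {x | ∃ w ∈ M.W, L x ∈ M.hNb κ w} ∩
    {x | M.hsig L (1 + 1) x ≤ ENNReal.ofReal (κ₀ / 2)}, fun x => c1 _, fun w => hL (c2 w),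
    (hL c3).inter (measurableSet_le hsm measurable_const), ?_, fun x hx b hb hxb => ?_,
    fun g hg => ?_⟩
  · have g4 := M.hcmain_markov hsm hSm (a := κ₀ / 2) (by positivity) (hsi L hL _ _ g2)
    refine le_trans (measure_mono fun x hx => ?_) ((measure_union_le _ _).trans
      (hcmain_add (by positivity) (by positivity) (le_of_eq (by field_simp; ring)) g1 g4))
    by_cases h : ∃ w ∈ M.W, L x ∈ M.hNb κ w
    · exact Or.inr ⟨hx.1, fun h' => hx.2 ⟨h, h'⟩⟩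
    · exact Or.inl ⟨hx.1, fun w hw h' => h ⟨w, hw, h'⟩⟩
  · refine c5 _ _ hxb.1 hx.1 ?_
    have g5 := (M.hsig_le hL (y := x) hb).trans (add_le_add hx.2 hxb.2)
    rw [← ENNReal.ofReal_add (by positivity) (by positivity), ← ofReal_norm,
      ENNReal.ofReal_le_ofReal_iff (by positivity)] at g5
    linarith
  · have g6 := M.hc_markov ((M.hErr_meas hfm hL).comp (measurable_id.prodMk measurable_const))
      (a := η / 2 / CA * R) (by positivity) (g3 g (by rwa [one_mul])) hSm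
    refine le_trans (measure_mono fun x hx => ?_) ((measure_union_le _ _).trans
      (hcmain_add (by positivity) (by positivity) (le_of_eq (by field_simp; ring)) g1 g6))
    by_cases h : ∃ w ∈ M.W, L x ∈ M.hNb κ w
    · refine Or.inr ⟨hx.1, ?_⟩
      have g7 := c4 _ h _ (M.hc_ah_ab g)
      have g8 := hA (M.hErr (fun y => M.ah (φ n y)) L x g)
      have g9 : M.A (φ n (x * g)) - M.A (φ n x) - col (L x) (M.A g) =
          M.A (M.hErr (fun y => M.ah (φ n y)) L x g) +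
            (M.A (L x (M.ah g)) - col (L x) (M.A (M.ah g))) := by
        simp only [hErr, map_sub, M.A_ah]
        abel
      have g10 : η * R < _ := hx.2
      rw [g9] at g10
      have g11 := g10.trans_le (norm_add_le _ _)
      have g12 : κ * ‖M.ah g‖ ≤ η / 2 * R :=
        (mul_le_mul_of_nonneg_left ((ha g).1.trans
          (mul_le_mul_of_nonneg_left hg (by linarith))) hκ.le).trans (by nlinarith)
      show η / 2 / CA * R ≤ ‖M.hErr (fun y => M.ah (φ n y)) L x g‖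
      rw [div_mul_eq_mul_div, div_le_iff₀ (by positivity)]
      linarith
    · exact Or.inl ⟨hx.1, fun w hw h' => h ⟨w, hw, h'⟩⟩

end Vale.Agent.P188.Geo
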