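import Vale.Agent.P188.H.PL1

/-! Part H: lower bound for Psi in all directions. -/

namespace Vale.Agent.P188.Geo
open scoped InnerProductSpace Pointwise
open MeasureTheory Filter Topology
variable (M : Geo)

theorem hc_pl_net (D κ : ℝ) (hκ : 0 < κ) : ∃ I : Finset M.G, (∀ c ∈ I, c ∈ M.ab ∧ ‖c‖ ≤ 1) ∧
    ∀ T : M.G →L[ℝ] M.G, ‖T‖ ≤ D →
      (∀ c ∈ I, M.Psi (M.A c) - κ / 2 ≤ M.Psi (M.A (T c))) → T ∈ M.hPG κ := by
  obtain ⟨P, hP1, hP⟩ := M.Psi_le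
  obtain ⟨a, ha1, ha⟩ := M.hc_norm_A
  have hc : IsCompact (Metric.closedBall (0 : M.G) 1 ∩ M.ab) :=
    (isCompact_closedBall 0 1).inter_right M.ab.closed_of_finiteDimensional
  set μ : ℝ := κ / 2 / (P * a * (|D| + 1)) with hμ
  have hμ0 : 0 < μ := by positivity
  have hμ1 : P * a * (|D| + 1) * μ = κ / 2 := by rw [hμ]; field_simp
  obtain ⟨t, ht, hf, hcov⟩ := finite_cover_balls_of_compact hc hμ0
  refine ⟨hf.toFinset, fun c h => ?_, fun T hT h v hv => ?_⟩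
  · have := ht (hf.mem_toFinset.1 h)
    exact ⟨this.2, mem_closedBall_zero_iff.1 this.1⟩
  have lip : ∀ x y : M.G, M.Psi (M.A x) ≤ M.Psi (M.A y) + P * (a * ‖x - y‖) := fun x y => by
    have h1 := M.Psi_add_le (M.A y) (M.A (x - y))
    rw [← map_add, add_sub_cancel] at h1
    exact h1.trans (add_le_add_right ((hP _).trans
      (mul_le_mul_of_nonneg_left (ha _) (by linarith))) _)
  have key : ∀ w ∈ M.ab, ‖w‖ ≤ 1 → M.Psi (M.A w) - κ ≤ M.Psi (M.A (T w)) := by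
    intro w hw h1
    obtain ⟨c, hc1, hc2⟩ := Set.mem_iUnion₂.1 (hcov ⟨mem_closedBall_zero_iff.2 h1, hw⟩)
    rw [mem_ball_iff_norm] at hc2
    have h2 := lip w c
    have h3 := lip (T c) (T w)
    have h4 := T.le_of_opNorm_le (hT.trans (le_abs_self D)) (c - w)
    rw [map_sub, norm_sub_rev c w] at h4
    have h5 := h c (hf.mem_toFinset.2 hc1)
    have h6 : 0 ≤ P * a := by positivity
    have h7 := mul_le_mul_of_nonneg_left
      (h4.trans (mul_le_mul_of_nonneg_left hc2.le (abs_nonneg D))) h6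
    have h8 := mul_le_mul_of_nonneg_left hc2.le h6
    linarith
  rcases eq_or_ne v 0 with rfl | h0
  · simp
  have h1 : 0 < ‖v‖ := norm_pos_iff.2 h0
  have h2 := key (‖v‖⁻¹ • v) (M.ab.smul_mem _ hv) (by
    rw [norm_smul, norm_inv, norm_norm, inv_mul_cancel₀ h1.ne'])
  rw [map_smul, map_smul, map_smul, M.Psi_smul, M.Psi_smul, abs_of_pos (inv_pos.2 h1),
    le_inv_mul_iff₀ h1, mul_sub, mul_inv_cancel_left₀ h1.ne', mul_comm] at h2
  exact h2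

theorem hc_pl (K C : ℝ) (u : Ultrafilter ℕ) (φ : ℕ → M.G → M.G) (hφ : ∀ n, M.MQI K C (φ n))
    (S : ℕ → Set M.G) (hS : M.Fol (u : Filter ℕ) S) (κ δ : ℝ) (hκ : 0 < κ) (hδ : 0 < δ) :
    ∃ N₀ : ℝ, 1 ≤ N₀ ∧ ∀ N, N₀ ≤ N → ∀ᶠ n in (u : Filter ℕ),
      volume (S n ∩ {x | M.hLN (fun y => M.ah (φ n y)) N x ∉ M.hPG κ}) ≤
        ENNReal.ofReal δ * volume (S n) := by
  obtain ⟨D, -, hD⟩ := M.hCL_ah K C
  obtain ⟨I, hI, hT⟩ := M.hc_pl_net (3 * M.d * D) κ hκ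
  obtain ⟨N₀, h1, h2⟩ := M.hc_pl1 K C u φ hφ S hS (κ / 2) (δ / (I.card + 1)) (half_pos hκ)
    (by positivity)
  refine ⟨N₀, h1, fun N hN => ?_⟩
  filter_upwards [(eventually_all_finset I).2 fun c hc => h2 N hN c (hI c hc).1 (hI c hc).2]
    with n hn
  have h3 : S n ∩ {x | M.hLN (fun y => M.ah (φ n y)) N x ∉ M.hPG κ} ⊆ ⋃ c ∈ I, S n ∩
      {x | M.Psi (M.A (M.hLN (fun y => M.ah (φ n y)) N x c)) < M.Psi (M.A c) - κ / 2} := by
    rintro x ⟨hx, hx'⟩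
    by_contra h
    refine hx' (hT _ ((M.hLN_LM (hD _ (hφ n)) (h1.trans hN)).2 x) fun c hc => not_lt.1 fun h' => ?_)
    exact h (Set.mem_iUnion₂.2 ⟨c, hc, hx, h'⟩)
  refine ((measure_mono h3).trans (measure_biUnion_finset_le _ _)).trans
    ((Finset.sum_le_card_nsmul _ _ _ hn).trans ?_)
  rw [nsmul_eq_mul, ← mul_assoc, ← ENNReal.ofReal_natCast, ← ENNReal.ofReal_mul (by positivity)]
  refine mul_le_mul_left (ENNReal.ofReal_le_ofReal ?_) _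
  rw [← mul_div_assoc, div_le_iff₀ (by positivity)]
  nlinarith

end Vale.Agent.P188.Geo
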