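import Vale.Agent.P188.H.Near1
import Vale.Agent.P188.H.CR
import Vale.Agent.P188.H.PL
import Vale.Agent.P188.H.Inv

/-! Part H: the derivative is mostly close to the orientation group. -/

namespace Vale.Agent.P188.Geo
open scoped InnerProductSpace Pointwise
open MeasureTheory Filter Topology
variable (M : Geo)

theorem hc_near (hO : M.Orth) (K C : ℝ) (u : Ultrafilter ℕ) (φ : ℕ → M.G → M.G)
    (hφ : ∀ n, M.MQI K C (φ n)) (S : ℕ → Set M.G) (hS : M.Fol (u : Filter ℕ) S)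
    (κ δ : ℝ) (hκ : 0 < κ) (hδ : 0 < δ) :
    ∃ N₀ : ℝ, 1 ≤ N₀ ∧ ∀ N, N₀ ≤ N → ∀ᶠ n in (u : Filter ℕ),
      volume (S n ∩ {x | ∀ w ∈ M.W, M.hLN (fun y => M.ah (φ n y)) N x ∉ M.hNb κ w}) ≤
        ENNReal.ofReal δ * volume (S n) := by
  obtain ⟨C', C₀, ψ, S', h⟩ := M.hc_dual K C u φ hφ S hS
  obtain ⟨D₁, -, hD₁⟩ := M.hCL_ah K C
  obtain ⟨D₂, -, hD₂⟩ := M.hCL_ah K C'
  obtain ⟨η, C₄, hη, hC₄, h1⟩ := M.hc_near1 hO K C (max (3 * M.d * D₁) (3 * M.d * D₂)) κ hκ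
  have hC₀ := h.one_le
  have hε : 0 < δ / C₄ := by positivity
  obtain ⟨N₁, hN₁, h2⟩ := M.hc_cr h _ hε
  obtain ⟨N₂, -, h3⟩ := M.hc_pl K C u φ hφ S hS η _ hη hε
  obtain ⟨N₃, -, h4⟩ := M.hc_pl K C' u ψ h.qψ S' h.fol' η (δ / C₄ / C₀) hη (by positivity)
  refine ⟨max N₁ (max N₂ N₃), le_max_of_le_left hN₁, fun N hN => ?_⟩
  simp only [max_le_iff] at hN
  filter_upwards [h2 N hN.1, h3 N hN.2.1, h4 N hN.2.2, h.ev] with n ⟨T, g1, g2, g3, g4, g5⟩ g6 g7 g8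
  have l1 := M.hLN_LM (hD₁ _ (hφ n)) (hN₁.trans hN.1)
  have l2 := M.hLN_LM (hD₂ _ (h.qψ n)) (hN₁.trans hN.1)
  have g9 := h1 _ (hφ n) _ _ ⟨l1.1, fun x => le_max_of_le_left (l1.2 x)⟩
    ⟨l2.1, fun x => le_max_of_le_right (l2.2 x)⟩ (M.hLN_ab _ _) _ _ T _ (h.fol'.1 n).1 g1 g2 g4
    hε.le g3 g6 (g7.trans ((mul_le_mul_right g8.2 _).trans (le_of_eq ?_))) g5
  · rwa [mul_div_cancel₀ _ (by positivity)] at g9
  · rw [← mul_assoc, ← ENNReal.ofReal_mul (by positivity), div_mul_cancel₀ _ (by positivity)]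

end Vale.Agent.P188.Geo
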