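import Vale.Agent.P188.H.Sig

/-! Part H: from the mean estimates to closeness to the orientation group. -/

namespace Vale.Agent.P188.Geo
open scoped InnerProductSpace Pointwise
open MeasureTheory Filter Topology
variable (M : Geo)

theorem hcnear1_sum {T T' : M.G →L[ℝ] M.G} {η : ℝ}
    (h : ∑ i, ‖M.hcv i - T' (T (M.hcv i))‖ ≤ η) {v : M.G} (hv : v ∈ M.ab) :
    ‖T' (T v) - v‖ ≤ η * ‖v‖ := by
  have e1 : v - T' (T v) = ∑ i, M.co i v • (M.hcv i - T' (T (M.hcv i))) := by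
    have e2 := (M.hc_sum_hcv v).trans (M.hc_ah_of_ab hv)
    simp only [smul_sub, Finset.sum_sub_distrib, ← map_smul, ← map_sum, e2]
  rw [norm_sub_rev, e1]
  refine (norm_sum_le_of_le _ (n := fun i => ‖M.hcv i - T' (T (M.hcv i))‖ * ‖v‖)
    fun i _ => ?_).trans ?_
  · rw [norm_smul, mul_comm]
    exact mul_le_mul_of_nonneg_left (M.hc_abs_co i v) (norm_nonneg _)
  · rw [← Finset.sum_mul]
    exact mul_le_mul_of_nonneg_right h (norm_nonneg _)

theorem hc_near1 (hO : M.Orth) (K C D' κ : ℝ) (hκ : 0 < κ) : ∃ η C₄ : ℝ, 0 < η ∧ 1 ≤ C₄ ∧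
    ∀ φ, M.MQI K C φ → ∀ L L' : M.G → (M.G →L[ℝ] M.G), M.hLM D' L → M.hLM D' L' →
    (∀ x v, L x v ∈ M.ab) → ∀ (S S' T : Set M.G) (ε : ℝ), MeasurableSet S' → MeasurableSet T →
    T ⊆ S → (∀ x ∈ T, ∀ ω ∈ M.Q, φ x * ω ∈ S') → 0 ≤ ε →
    volume (S \ T) ≤ ENNReal.ofReal ε * volume S →
    volume (S ∩ {x | L x ∉ M.hPG η}) ≤ ENNReal.ofReal ε * volume S →
    volume (S' ∩ {y | L' y ∉ M.hPG η}) ≤ ENNReal.ofReal ε * volume S →
    (∀ i, ∫⁻ x in T, ∫⁻ ω in M.Q, ‖M.hcv i - L' (φ x * ω) (L x (M.hcv i))‖ₑ ≤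
      ENNReal.ofReal ε * volume S) →
    volume (S ∩ {x | ∀ w ∈ M.W, L x ∉ M.hNb κ w}) ≤ ENNReal.ofReal (C₄ * ε) * volume S := by
  obtain ⟨η, hη, hn⟩ := M.near_W hO D' κ hκ
  obtain ⟨Cp, hCp, hp⟩ := M.hc_pb K C
  obtain ⟨q0, q1⟩ := M.hc_vol_Q
  have q2 : 0 < (volume M.Q).toReal := ENNReal.toReal_pos q0 q1
  have q3 : 0 ≤ (Cp + η⁻¹ * M.d) / (volume M.Q).toReal := by positivity
  refine ⟨η, 2 + (Cp + η⁻¹ * M.d) / (volume M.Q).toReal, hη, by linarith,
    fun φ hφ L L' hL hL' hab S S' T ε hS' hT hTS hφT hε h1 h2 h3 h4 => ?_⟩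
  have mN : MeasurableSet {y | L' y ∉ M.hPG η} := hL'.1 (M.hPG_closed η).measurableSet.compl
  obtain ⟨f, hf⟩ : ∃ f : M.G → ENNReal, f = {y | L' y ∉ M.hPG η}.indicator 1 := ⟨_, rfl⟩
  have mf : Measurable f := hf ▸ measurable_one.indicator mN
  obtain ⟨g, hg⟩ : ∃ g : Fin M.d → M.G → M.G → ENNReal, ∀ i x ω,
      g i x ω = ‖M.hcv i - L' (φ x * ω) (L x (M.hcv i))‖ₑ := ⟨_, fun _ _ _ => rfl⟩
  have m0 : Measurable fun p : M.G × M.G => φ p.1 * p.2 :=
    (hφ.1.comp measurable_fst).mul measurable_snd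
  have mg : ∀ i, Measurable fun p : M.G × M.G => g i p.1 p.2 := fun i => by
    simp only [hg]
    exact (measurable_const.sub (ContinuousLinearMap.measurable_apply₂.comp
      ((hL'.1.comp m0).prodMk (((ContinuousLinearMap.measurable_apply _).comp hL.1).comp
        measurable_fst)))).enorm
  have m1 : Measurable fun x => ∫⁻ ω in M.Q, f (φ x * ω) := (mf.comp m0).lintegral_prod_right'
  have m2 : ∀ i, Measurable fun x => ∫⁻ ω in M.Q, g i x ω := fun i => (mg i).lintegral_prod_right'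
  have m3 := Finset.measurable_sum Finset.univ fun i _ => m2 i
  have a1 : ∫⁻ x in T, ((∫⁻ ω in M.Q, f (φ x * ω)) +
      ENNReal.ofReal η⁻¹ * ∑ i, ∫⁻ ω in M.Q, g i x ω) ≤
      ENNReal.ofReal ((Cp + η⁻¹ * M.d) * ε) * volume S := by
    rw [lintegral_add_left m1, lintegral_const_mul _ m3, lintegral_finsetSum _ fun i _ => m2 i]
    have b1 := hp φ hφ f mf T S' hT hS' 1 (by simpa only [mul_one] using hφT)
    simp only [mul_one] at b1
    have b2 : ∫⁻ y in S', f y = volume (S' ∩ {y | L' y ∉ M.hPG η}) := by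
      rw [hf, lintegral_indicator_one mN, Measure.restrict_apply mN, Set.inter_comm]
    rw [b2] at b1
    have b3 : ∑ i, ∫⁻ x in T, ∫⁻ ω in M.Q, g i x ω ≤ M.d * (ENNReal.ofReal ε * volume S) := by
      simp only [hg]
      exact (Finset.sum_le_card_nsmul _ _ _ fun i _ => h4 i).trans_eq (by simp)
    refine (add_le_add (b1.trans (mul_le_mul_right h3 _)) (mul_le_mul_right b3 _)).trans_eq ?_
    rw [ENNReal.ofReal_mul (by positivity), ENNReal.ofReal_add (by positivity) (by positivity),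
      ENNReal.ofReal_mul (by positivity), ENNReal.ofReal_natCast]
    ring
  have a2 := (meas_ge_le_lintegral_div (μ := volume.restrict T)
    (m1.add (m3.const_mul (ENNReal.ofReal η⁻¹))).aemeasurable q0 q1).trans
      (ENNReal.div_le_div_right a1 _)
  rw [Measure.restrict_apply' hT] at a2
  refine (measure_mono fun x hx => ?_).trans (((measure_union_le _ _).trans (add_le_add
    ((measure_union_le _ _).trans (add_le_add h1 h2)) a2)).trans_eq ?_)
  · by_contra hc
    simp only [Set.mem_union, Set.mem_inter_iff, Set.mem_sdiff, Set.mem_ofPred_eq, hx.1, true_and,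
      not_or, not_not, not_and', not_le, Pi.add_apply] at hc
    obtain ⟨⟨c1, c2⟩, c3⟩ := hc
    have c4 := c3 c1
    have n1 : Measurable fun ω => f (φ x * ω) := mf.comp (measurable_const_mul _)
    have n2 : ∀ i, Measurable (g i x) := fun i => (mg i).comp measurable_prodMk_left
    rw [← lintegral_finsetSum _ fun i _ => n2 i,
      ← lintegral_const_mul _ (Finset.measurable_sum _ fun i _ => n2 i),
      ← lintegral_add_left n1] at c4
    obtain ⟨ω, c5⟩ : ∃ ω, f (φ x * ω) + ENNReal.ofReal η⁻¹ * ∑ i, g i x ω < 1 := by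
      by_contra c6
      push Not at c6
      exact c4.not_ge ((setLIntegral_one _).symm.trans_le (lintegral_mono c6))
    have c6 : L' (φ x * ω) ∈ M.hPG η := by
      by_contra c7
      have := le_self_add.trans_lt c5
      rw [hf, Set.indicator_of_mem (s := {y | L' y ∉ M.hPG η}) c7] at this
      exact this.false
    have c7 := le_add_self.trans_lt c5
    simp only [hg, ← ofReal_norm] at c7
    rw [← ENNReal.ofReal_sum_of_nonneg fun i _ => norm_nonneg _,
      ← ENNReal.ofReal_mul (by positivity), ENNReal.ofReal_lt_one, inv_mul_lt_one₀ hη] at c7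
    obtain ⟨w, hw, c8⟩ := hn (L x) (L' (φ x * ω)) (hL.2 _) (hL'.2 _) (fun v _ => hab x v)
      (fun v hv => M.hcnear1_sum c7.le hv) c2 c6
    exact hx.2 w hw c8
  · rw [add_mul 2, div_mul_eq_mul_div, ENNReal.ofReal_add (by positivity) (by positivity),
      ENNReal.ofReal_div_of_pos q2, ENNReal.ofReal_toReal q1, two_mul, ENNReal.ofReal_add hε hε,
      div_eq_mul_inv, div_eq_mul_inv]
    ring

end Vale.Agent.P188.Geo
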