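import Mathlib

/-! Part H: mean ergodic lemma and the one-level averaging of a cocycle. -/

namespace Vale.Agent.P188
open scoped InnerProductSpace
variable {Γ H : Type*} [Group Γ] [NormedAddCommGroup H] [InnerProductSpace ℝ H] [CompleteSpace H]

theorem hc_erg (π : Γ →* (H ≃ₗᵢ[ℝ] H)) (N : Subgroup Γ) (W : Submodule ℝ H)
    (hW : IsClosed (W : Set H)) (hinv : ∀ z ∈ N, ∀ w ∈ W, π z w ∈ W)
    (hfix : ∀ w ∈ W, (∀ z ∈ N, π z w = w) → w = 0) {ξ : H} (hξ : ξ ∈ W)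
    {C : Set H} (hC : Convex ℝ C) (hm : ∀ z ∈ N, π z ξ ∈ C) {ε : ℝ} (hε : 0 < ε) :
    ∃ v ∈ C, ‖v‖ ≤ ε := by
  obtain ⟨O, hO⟩ : ∃ O : Set H, O = {x | ∃ z ∈ N, π z ξ = x} := ⟨_, rfl⟩
  have hOm : ∀ z ∈ N, π z ξ ∈ O := fun z hz => by rw [hO]; exact ⟨z, hz, rfl⟩
  have hmin : ∀ S : Set H, Convex ℝ S → (∀ z ∈ N, π z ξ ∈ S) →
      closure (convexHull ℝ O) ⊆ closure S := fun S h1 h2 => by
    refine closure_mono (convexHull_min ?_ h1)
    rw [hO]
    rintro _ ⟨z, hz, rfl⟩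
    exact h2 z hz
  have hsub : O ⊆ closure (convexHull ℝ O) := (subset_convexHull ℝ O).trans subset_closure
  have hK : Convex ℝ (closure (convexHull ℝ O)) := (convex_convexHull ℝ O).closure
  obtain ⟨v, hv, hv2⟩ := exists_norm_eq_iInf_of_complete_convex ⟨_, hsub (hOm 1 N.one_mem)⟩
    isClosed_closure.isComplete hK 0
  rw [norm_eq_iInf_iff_real_inner_le_zero hK hv] at hv2
  have hvW : v ∈ W := by
    have := hmin W W.convex (fun z hz => hinv z hz _ hξ) hv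
    rwa [hW.closure_eq] at this
  have hv0 : v = 0 := by
    refine hfix v hvW fun z hz => ?_
    have h1 : IsClosed ((π z) ⁻¹' closure (convexHull ℝ O)) :=
      isClosed_closure.preimage (π z).continuous
    have h2 : Convex ℝ ((π z) ⁻¹' closure (convexHull ℝ O)) :=
      hK.linear_preimage (π z).toLinearEquiv.toLinearMap
    have h3 := hmin _ h2 (fun y hy => by
      have := hsub (hOm (z * y) (N.mul_mem hz hy))
      rw [map_mul] at this
      exact this) hv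
    rw [h1.closure_eq] at h3
    have h4 := hv2 _ h3
    rw [zero_sub, inner_neg_left, inner_sub_right, real_inner_self_eq_norm_sq] at h4
    have h5 := norm_sub_sq_real (π z v) v
    rw [(π z).norm_map, real_inner_comm] at h5
    have h6 : ‖π z v - v‖ ^ 2 = 0 := le_antisymm (by linarith) (sq_nonneg _)
    exact sub_eq_zero.1 (norm_eq_zero.1 (pow_eq_zero_iff two_ne_zero |>.1 h6))
  have h0 := hmin C hC hm hv
  rw [hv0] at h0
  obtain ⟨y, hy, hy2⟩ := Metric.mem_closure_iff.1 h0 ε hε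
  exact ⟨y, hy, by simpa using hy2.le⟩

theorem hc_level (π : Γ →* (H ≃ₗᵢ[ℝ] H)) (U N : Subgroup Γ) (hNU : N ≤ U) (W : Submodule ℝ H)
    (hW : IsClosed (W : Set H)) (hinv : ∀ g ∈ U, ∀ w ∈ W, π g w ∈ W)
    (hfix : ∀ w ∈ W, (∀ z ∈ N, π z w = w) → w = 0)
    (hcomm : ∀ z ∈ N, ∀ g ∈ U, ∀ w ∈ W, π z (π g w) = π g (π z w))
    (T : Finset Γ) (hT : ∀ t ∈ T, t ∈ U) {ε : ℝ} (hε : 0 < ε) (β : Γ → H)
    (hβ : ∀ g ∈ U, ∀ h ∈ U, β (g * h) = β g + π g (β h)) (hβW : ∀ g ∈ U, β g ∈ W)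
    (hid : ∀ z ∈ N, ∀ g ∈ U, β g - π z (β g) = β z - π g (β z)) :
    ∃ v ∈ W, (∀ g ∈ U, ‖β g - (v - π g v)‖ ≤ ‖β g‖) ∧ ∀ t ∈ T, ‖β t - (v - π t v)‖ ≤ ε := by
  classical
  induction T using Finset.induction_on with
  | empty => exact ⟨0, W.zero_mem, fun g _ => by simp, fun t ht => by simp at ht⟩
  | insert t T' _ ih =>
    obtain ⟨v1, hv1, h1, h2⟩ := ih fun s hs => hT s (Finset.mem_insert_of_mem hs)
    have ht : t ∈ U := hT t (Finset.mem_insert_self _ _)
    obtain ⟨γ, hγ⟩ : ∃ γ : Γ → H, γ = fun g => β g - (v1 - π g v1) := ⟨_, rfl⟩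
    have hγx : ∀ g, β g - (v1 - π g v1) = γ g := fun g => by rw [hγ]
    have γW : ∀ g ∈ U, γ g ∈ W := fun g hg => by
      rw [← hγx]
      exact W.sub_mem (hβW g hg) (W.sub_mem hv1 (hinv g hg _ hv1))
    have γid : ∀ z ∈ N, ∀ g ∈ U, γ g - (γ z - π g (γ z)) = π z (γ g) := fun z hz g hg => by
      have a1 := hid z hz g hg
      have a2 := hcomm z hz g hg v1 hv1
      have a3 : β g = π z (β g) + (β z - π g (β z)) := by rw [← a1]; abel
      simp only [← hγx, map_sub]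
      rw [a2]
      nth_rewrite 1 [a3]
      abel
    have hC : Convex ℝ {x | ∃ v ∈ W, (∀ g ∈ U, ‖γ g - (v - π g v)‖ ≤ ‖γ g‖) ∧
        γ t - (v - π t v) = x} := by
      rintro _ ⟨v, hv, a1, rfl⟩ _ ⟨w, hw, a2, rfl⟩ a b ha hb hab
      have e : ∀ g, γ g - (a • v + b • w - π g (a • v + b • w)) =
          a • (γ g - (v - π g v)) + b • (γ g - (w - π g w)) := fun g => by
        have : γ g = a • γ g + b • γ g := by rw [← add_smul, hab, one_smul]
        simp only [map_add, map_smul, smul_sub]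
        nth_rewrite 1 [this]
        abel
      refine ⟨a • v + b • w, W.add_mem (W.smul_mem _ hv) (W.smul_mem _ hw), fun g hg => ?_, e t⟩
      rw [e]
      refine (norm_add_le _ _).trans ?_
      rw [norm_smul, norm_smul, Real.norm_of_nonneg ha, Real.norm_of_nonneg hb]
      have b1 := mul_le_mul_of_nonneg_left (a1 g hg) ha
      have b2 := mul_le_mul_of_nonneg_left (a2 g hg) hb
      have b3 : a * ‖γ g‖ + b * ‖γ g‖ = ‖γ g‖ := by rw [← add_mul, hab, one_mul]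
      linarith
    obtain ⟨_, ⟨v2, hv2, a1, rfl⟩, a2⟩ := hc_erg π N W hW (fun z hz => hinv z (hNU hz)) hfix
      (γW t ht) hC (fun z hz => ⟨γ z, γW z (hNU hz), fun g hg => by
        rw [γid z hz g hg, (π z).norm_map], γid z hz t ht⟩) hε
    have e : ∀ g, β g - (v1 + v2 - π g (v1 + v2)) = γ g - (v2 - π g v2) := fun g => by
      rw [← hγx, map_add]; abel
    refine ⟨v1 + v2, W.add_mem hv1 hv2, fun g hg => ?_, fun s hs => ?_⟩
    · rw [e]
      exact (a1 g hg).trans (hγx g ▸ h1 g hg)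
    · rw [e]
      rcases Finset.mem_insert.1 hs with rfl | hs'
      · exact a2
      · exact (a1 s (hT s hs)).trans (hγx s ▸ h2 s hs')

end Vale.Agent.P188
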