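import Vale.Agent.P188.H.Nil1

/-! Part H: cocycles of nilpotent groups are almost coboundaries off the invariant vectors. -/

namespace Vale.Agent.P188
open scoped InnerProductSpace
variable {Γ H : Type*} [Group Γ] [NormedAddCommGroup H] [InnerProductSpace ℝ H] [CompleteSpace H]

/-- vectors fixed by a subgroup -/
def hcnil2_fix (π : Γ →* (H ≃ₗᵢ[ℝ] H)) (N : Subgroup Γ) : Submodule ℝ H where
  carrier := {x | ∀ z ∈ N, π z x = x}
  add_mem' := fun ha hb z hz => by rw [map_add, ha z hz, hb z hz]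
  zero_mem' := fun z _ => map_zero _
  smul_mem' := fun a x hx z hz => by rw [map_smul, hx z hz]

omit [CompleteSpace H] in
theorem hcnil2_closed (π : Γ →* (H ≃ₗᵢ[ℝ] H)) (N : Subgroup Γ) :
    IsClosed (hcnil2_fix π N : Set H) := by
  have : (hcnil2_fix π N : Set H) = ⋂ z ∈ N, {x | π z x = x} := by
    ext x
    simp only [Set.mem_iInter]
    rfl
  rw [this]
  exact isClosed_biInter fun z _ => isClosed_eq (π z).continuous continuous_id

omit [CompleteSpace H] in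
theorem hcnil2_inner (π : Γ →* (H ≃ₗᵢ[ℝ] H)) (g : Γ) (x y : H) :
    ⟪π g x, y⟫_ℝ = ⟪x, π g⁻¹ y⟫_ℝ := by
  have : y = π g (π g⁻¹ y) := by
    change y = (π g * π g⁻¹) y
    rw [← map_mul, mul_inv_cancel, map_one]
    rfl
  nth_rewrite 1 [this]
  exact (π g).inner_map_map _ _

theorem hcnil2_proj (π : Γ →* (H ≃ₗᵢ[ℝ] H)) (K : Submodule ℝ H) (hK : IsClosed (K : Set H)) :
    ∃ P : H →L[ℝ] H, (∀ x, P x ∈ K) ∧ (∀ x, ∀ w ∈ K, ⟪x - P x, w⟫_ℝ = 0) ∧
      ∀ g, (∀ x ∈ K, π g x ∈ K) → (∀ x ∈ K, π g⁻¹ x ∈ K) → ∀ x, P (π g x) = π g (P x) := by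
  haveI : CompleteSpace K := hK.completeSpace_coe
  refine ⟨K.starProjection, fun x => K.starProjection_apply_mem x,
    fun x w hw => K.starProjection_inner_eq_zero x w hw, fun g h1 h2 x => ?_⟩
  refine K.eq_starProjection_of_mem_of_inner_eq_zero (h1 _ (K.starProjection_apply_mem x))
    fun w hw => ?_
  rw [← map_sub, hcnil2_inner]
  exact K.starProjection_inner_eq_zero x _ (h2 w hw)

theorem hcnil2_level (π : Γ →* (H ≃ₗᵢ[ℝ] H))
    (N : ℕ → Subgroup Γ) (c : ℕ) (hN : Antitone N) (hc : N c = ⊥)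
    (hcm : ∀ j, ∀ g ∈ N 0, ∀ z ∈ N j, g * z * g⁻¹ * z⁻¹ ∈ N (j + 1))
    (hI : ∀ j, ∀ g ∈ N 0, ∀ x ∈ hcnil2_fix π (N j), π g x ∈ hcnil2_fix π (N j))
    (j : ℕ) (hj : j < c) (β : Γ → H)
    (hβ : ∀ g ∈ N 0, ∀ h ∈ N 0, β (g * h) = β g + π g (β h))
    (hW : ∀ g, β g ∈ hcnil2_fix π (N (j + 1)) ⊓ (hcnil2_fix π (N j))ᗮ)
    (T : Finset Γ) (hT : ∀ t ∈ T, t ∈ N 0) {ε : ℝ} (hε : 0 < ε) :
    ∃ v, (∀ g ∈ N 0, ‖β g - (v - π g v)‖ ≤ ‖β g‖) ∧ ∀ t ∈ T, ‖β t - (v - π t v)‖ ≤ ε := by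
  have h0 : ∀ i, N i ≤ N 0 := fun i => hN (Nat.zero_le i)
  have hfix : ∀ w ∈ hcnil2_fix π (N (j + 1)) ⊓ (hcnil2_fix π (N j))ᗮ,
      (∀ z ∈ N j, π z w = w) → w = 0 := fun w hw h =>
    inner_self_eq_zero.1 (Submodule.inner_right_of_mem_orthogonal (K := hcnil2_fix π (N j)) h hw.2)
  have key : ∀ g ∈ N 0, ∀ z ∈ N 0, g * z * g⁻¹ * z⁻¹ ∈ N (j + 1) → β (g * z * g⁻¹ * z⁻¹) = 0 →
      β g + π g (β z) = β z + π z (β g) := fun g hg z hz h1 h2 => by
    have e : g * z = g * z * g⁻¹ * z⁻¹ * (z * g) := by group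
    rw [← hβ g hg z hz, ← hβ z hz g hg, e, hβ _ (h0 _ h1) _ ((N 0).mul_mem hz hg), h2, zero_add]
    exact (hW _).1 _ h1
  have van : ∀ d i, i + d = c → j + 1 ≤ i → ∀ z ∈ N i, β z = 0 := by
    intro d
    induction d with
    | zero =>
      intro i hi _ z hz
      rw [add_zero] at hi
      rw [hi, hc, Subgroup.mem_bot] at hz
      have := hβ 1 (N 0).one_mem 1 (N 0).one_mem
      rw [mul_one, map_one] at this
      rw [hz]
      simpa using this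
    | succ d ih =>
      intro i hi hji z hz
      refine hfix _ (hW z) fun g hg => ?_
      have a1 := hcm i g (h0 _ hg) z hz
      have a2 := key g (h0 _ hg) z (h0 _ hz) (hN (by omega) a1) (ih (i + 1) (by omega) (by omega) _ a1)
      rw [(hW g).1 z (hN hji hz), add_comm (β z)] at a2
      exact add_left_cancel a2
  have hinv : ∀ g ∈ N 0, ∀ w ∈ hcnil2_fix π (N (j + 1)) ⊓ (hcnil2_fix π (N j))ᗮ,
      π g w ∈ hcnil2_fix π (N (j + 1)) ⊓ (hcnil2_fix π (N j))ᗮ := fun g hg w hw => by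
    refine ⟨hI _ g hg w hw.1, (Submodule.mem_orthogonal' _ _).2 fun u hu => ?_⟩
    rw [hcnil2_inner]
    exact Submodule.inner_left_of_mem_orthogonal (hI j _ ((N 0).inv_mem hg) u hu) hw.2
  obtain ⟨v, -, hv⟩ := hc_level π (N 0) (N j) (h0 j)
    (hcnil2_fix π (N (j + 1)) ⊓ (hcnil2_fix π (N j))ᗮ)
    ((hcnil2_closed π _).inter (Submodule.isClosed_orthogonal _)) hinv hfix
    (fun z hz g hg w hw => by
      have e : g * z = g * z * g⁻¹ * z⁻¹ * (z * g) := by group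
      have a1 := (hinv _ ((N 0).mul_mem (h0 _ hz) hg) w hw).1 _ (hcm j g hg z hz)
      change (π z * π g) w = (π g * π z) w
      rw [← map_mul, ← map_mul, e, map_mul π _ (z * g)]
      exact a1.symm)
    T hT hε β hβ (fun g _ => hW g) (fun z hz g hg => by
      have a1 := hcm j g hg z hz
      have a2 := key g hg z (h0 _ hz) a1 (van (c - (j + 1)) (j + 1) (by omega) le_rfl _ a1)
      rw [sub_eq_sub_iff_add_eq_add, a2])
  exact ⟨v, hv⟩

theorem hc_nil (π : Γ →* (H ≃ₗᵢ[ℝ] H)) (b : Γ → H) (hb : ∀ g h, b (g * h) = b g + π g (b h))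
    (N : ℕ → Subgroup Γ) (c : ℕ) (hN : Antitone N) (hc : N c = ⊥)
    (hcm : ∀ j, ∀ g ∈ N 0, ∀ z ∈ N j, g * z * g⁻¹ * z⁻¹ ∈ N (j + 1)) :
    ∃ ℓ : Γ → H, (∀ g ∈ N 0, ∀ h ∈ N 0, ℓ (g * h) = ℓ g + ℓ h) ∧
      (∀ g ∈ N 0, ∀ h, π g (ℓ h) = ℓ h) ∧ (∀ g, ‖ℓ g‖ ≤ ‖b g‖) ∧
      ∀ (T : Finset Γ) (ε : ℝ), 0 < ε → (∀ t ∈ T, t ∈ N 0) → ∃ v : H,
        (∀ g ∈ N 0, ‖b g - ℓ g - (v - π g v)‖ ≤ c * ‖b g‖) ∧
        ∀ t ∈ T, ‖b t - ℓ t - (v - π t v)‖ ≤ ε := by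
  have hI : ∀ j, ∀ g ∈ N 0, ∀ x ∈ hcnil2_fix π (N j), π g x ∈ hcnil2_fix π (N j) := by
    intro j g hg x hx z hz
    have a1 := (N j).mul_mem (hN (Nat.le_succ j) (hcm j _ ((N 0).inv_mem hg) z hz)) hz
    have a2 := hx _ a1
    have e : z * g = g * (g⁻¹ * z * g⁻¹⁻¹ * z⁻¹ * z) := by group
    change (π z * π g) x = _
    rw [← map_mul, e, map_mul]
    change π g (π _ x) = _
    rw [a2]
  choose P hP1 hP2 hP3 using fun j => hcnil2_proj π _ (hcnil2_closed π (N j))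
  have hPc : ∀ j, ∀ g ∈ N 0, ∀ x, P j (π g x) = π g (P j x) := fun j g hg =>
    hP3 j g (hI j g hg) (hI j _ ((N 0).inv_mem hg))
  have hle : ∀ j, hcnil2_fix π (N j) ≤ hcnil2_fix π (N (j + 1)) := fun j x hx z hz =>
    hx z (hN (Nat.le_succ j) hz)
  have nrm : ∀ x y : H, ⟪x - y, y⟫_ℝ = 0 → ‖y‖ ≤ ‖x‖ := fun x y h => by
    rw [inner_sub_left, real_inner_self_eq_norm_sq] at h
    have := real_inner_le_norm x y
    nlinarith [norm_nonneg x, norm_nonneg y]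
  have hW : ∀ j x, P (j + 1) x - P j x ∈ hcnil2_fix π (N (j + 1)) ⊓ (hcnil2_fix π (N j))ᗮ :=
    fun j x => by
      refine ⟨Submodule.sub_mem _ (hP1 _ _) (hle j (hP1 _ _)),
        (Submodule.mem_orthogonal' _ _).2 fun u hu => ?_⟩
      have e : P (j + 1) x - P j x = (x - P j x) - (x - P (j + 1) x) := by abel
      rw [e, inner_sub_left, hP2 j x u hu, hP2 (j + 1) x u (hle j hu), sub_zero]
  have hn : ∀ j x, ‖P (j + 1) x - P j x‖ ≤ ‖x‖ := fun j x => by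
    refine nrm _ _ ?_
    have e : x - (P (j + 1) x - P j x) = (x - P (j + 1) x) + P j x := by abel
    rw [e, inner_add_left, hP2 (j + 1) x _ (hW j x).1, zero_add]
    exact Submodule.inner_right_of_mem_orthogonal (hP1 j x) (hW j x).2
  have hPtop : ∀ x, P c x = x := fun x => by
    have := hP2 c x (x - P c x) fun z hz => by
      rw [hc, Subgroup.mem_bot] at hz
      rw [hz, map_one]
      rfl
    exact (sub_eq_zero.1 (inner_self_eq_zero.1 this)).symm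
  refine ⟨fun g => P 0 (b g), fun g hg h _ => ?_, fun g hg h => hP1 0 _ g hg,
    fun g => nrm _ _ (hP2 0 _ _ (hP1 0 _)), fun T ε hε hT => ?_⟩
  · dsimp only
    rw [hb, map_add, hPc 0 g hg, hP1 0 _ g hg]
  have hε' : 0 < ε / (c + 1) := by positivity
  have ex : ∀ j, ∃ v, j < c → (∀ g ∈ N 0, ‖P (j + 1) (b g) - P j (b g) - (v - π g v)‖ ≤
      ‖P (j + 1) (b g) - P j (b g)‖) ∧
      ∀ t ∈ T, ‖P (j + 1) (b t) - P j (b t) - (v - π t v)‖ ≤ ε / (c + 1) := fun j => by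
    by_cases hj : j < c
    · obtain ⟨v, hv⟩ := hcnil2_level π N c hN hc hcm hI j hj
        (fun g => P (j + 1) (b g) - P j (b g)) (fun g hg h _ => by
          simp only [hb, map_add, hPc _ g hg, map_sub]
          abel) (fun g => hW j _) T hT hε'
      exact ⟨v, fun _ => hv⟩
    · exact ⟨0, fun h => absurd h hj⟩
  choose v hv using ex
  have e : ∀ g, b g - P 0 (b g) - (∑ j ∈ Finset.range c, v j - π g (∑ j ∈ Finset.range c, v j)) =
      ∑ j ∈ Finset.range c, (P (j + 1) (b g) - P j (b g) - (v j - π g (v j))) := fun g => by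
    rw [Finset.sum_sub_distrib, Finset.sum_range_sub fun j => P j (b g), hPtop,
      Finset.sum_sub_distrib, map_sum]
  refine ⟨∑ j ∈ Finset.range c, v j, fun g hg => ?_, fun t ht => ?_⟩
  · rw [e]
    refine (norm_sum_le _ _).trans ((Finset.sum_le_card_nsmul _ _ ‖b g‖ fun j hj =>
      ((hv j (Finset.mem_range.1 hj)).1 g hg).trans (hn j _)).trans ?_)
    simp
  · rw [e]
    refine (norm_sum_le _ _).trans ((Finset.sum_le_card_nsmul _ _ (ε / (c + 1)) fun j hj =>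
      (hv j (Finset.mem_range.1 hj)).2 t ht).trans ?_)
    rw [Finset.card_range, nsmul_eq_mul, ← mul_div_assoc, div_le_iff₀ (by positivity)]
    nlinarith

end Vale.Agent.P188
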