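import Vale.Agent.P188.H.LF

/-! Part H: lower bound for Psi in one direction. -/

namespace Vale.Agent.P188.Geo
open scoped InnerProductSpace Pointwise
open MeasureTheory Filter Topology
variable (M : Geo)

theorem hcpl1_t {T : ℝ} (hT : 0 ≤ T) (J : ℕ) (j : Fin (J + 1)) :
    0 ≤ (j : ℝ) * T / J ∧ (j : ℝ) * T / J ≤ T := by
  refine ⟨by positivity, ?_⟩
  have hj : (j : ℝ) ≤ J := by exact_mod_cast Nat.lt_succ_iff.1 j.2
  rcases Nat.eq_zero_or_pos J with h | h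
  · subst h; simpa using hT
  · rw [div_le_iff₀ (by exact_mod_cast h)]
    nlinarith

theorem hc_pl0 : ∃ C₁ : ℝ, 1 ≤ C₁ ∧ ∀ (φ : M.G → M.G) (L : M.G → (M.G →L[ℝ] M.G)) (x : M.G),
    ∀ c ∈ M.ab, ∀ (T : ℝ) (J : ℕ) (ε : ℝ), 0 ≤ T → 0 ≤ ε →
      (∀ j : Fin (J + 1), ‖M.hErr (fun y => M.ah (φ y)) L x (((j : ℝ) * T / J) • c)‖ ≤ ε) →
      M.Phi (M.hr φ c T J x) ≤ T * M.Psi (M.A (L x c)) + C₁ * ε := by
  obtain ⟨CA, hCA, hA⟩ := M.hc_norm_A
  have hw : 0 ≤ M.wmax := Finset.sum_nonneg fun _ _ => norm_nonneg _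
  refine ⟨1 + M.d * M.c * (M.wmax * CA), by
    have : 0 ≤ M.d * M.c * (M.wmax * CA) := by positivity
    linarith, fun φ L x c hc T J ε hT hε h => ?_⟩
  have key : ∀ i, M.wt i ≠ 0 → M.hr φ c T J x i ≤
      (T • fun i => max 0 ⟪M.wt i, M.A (L x c)⟫_ℝ) i + M.wmax * CA * ε := by
    intro i _
    refine ciSup_le fun j => ?_
    obtain ⟨t0, t1⟩ := hcpl1_t hT J j
    set t := (j : ℝ) * T / J
    have e : M.A (φ (x * (t • c))) - M.A (φ x) =
        M.A (M.hErr (fun y => M.ah (φ y)) L x (t • c)) + t • M.A (L x c) := by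
      simp only [hErr, map_sub, map_smul, A_ah, M.hc_ah_of_ab hc]
      abel
    have h1 : ‖M.wt i‖ ≤ M.wmax :=
      Finset.single_le_sum (f := fun i => ‖M.wt i‖) (fun _ _ => norm_nonneg _) (Finset.mem_univ i)
    have h2 : ⟪M.wt i, M.A (M.hErr (fun y => M.ah (φ y)) L x (t • c))⟫_ℝ ≤ M.wmax * CA * ε := by
      refine (real_inner_le_norm _ _).trans ?_
      rw [mul_assoc]
      gcongr
      exact (hA _).trans (by gcongr; exact h j)
    have h3 : t * ⟪M.wt i, M.A (L x c)⟫_ℝ ≤ T * max 0 ⟪M.wt i, M.A (L x c)⟫_ℝ :=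
      calc _ ≤ t * max 0 ⟪M.wt i, M.A (L x c)⟫_ℝ := by gcongr; exact le_max_right _ _
        _ ≤ _ := by gcongr
    simp only [wv, e, inner_add_right, inner_smul_right, Pi.smul_apply, smul_eq_mul]
    linarith
  have h1 := M.Phi_le_add (by positivity) key
  rw [M.Phi_smul hT] at h1
  have h2 : M.Psi (M.A (L x c)) = M.Phi fun i => max 0 ⟪M.wt i, M.A (L x c)⟫_ℝ := rfl
  rw [h2]
  nlinarith

theorem hc_pl1 (K C : ℝ) (u : Ultrafilter ℕ) (φ : ℕ → M.G → M.G) (hφ : ∀ n, M.MQI K C (φ n))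
    (S : ℕ → Set M.G) (hS : M.Fol (u : Filter ℕ) S) (κ δ : ℝ) (hκ : 0 < κ) (hδ : 0 < δ) :
    ∃ N₀ : ℝ, 1 ≤ N₀ ∧ ∀ N, N₀ ≤ N → ∀ c ∈ M.ab, ‖c‖ ≤ 1 → ∀ᶠ n in (u : Filter ℕ),
      volume (S n ∩ {x | M.Psi (M.A (M.hLN (fun y => M.ah (φ n y)) N x c)) <
        M.Psi (M.A c) - κ}) ≤ ENNReal.ofReal δ * volume (S n) := by
  obtain ⟨C₁, hC₁, hpl⟩ := M.hc_pl0
  obtain ⟨T₀, J₀, htz⟩ := M.tz_G K C (κ / 2) (δ / 4) (by positivity) (by positivity)
  obtain ⟨D, hD, hCL⟩ := M.hCL_ah K C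
  obtain ⟨r₀, hr₀, hlf⟩ := M.hc_lf u (fun n y => M.ah (φ n y)) (fun n => hCL _ (hφ n)) S hS 2
    (κ * δ / (4 * C₁ * (J₀ + 1))) (by positivity)
  set T := max r₀ T₀
  have hT : 1 ≤ T := hr₀.trans (le_max_left _ _)
  refine ⟨T, hT, fun N hN c hc hc1 => ?_⟩
  have hcu : c ∈ M.u0 := M.hc_ah_of_ab hc ▸ M.ah_mem_u0 c
  obtain ⟨R, hR⟩ := M.exists_ln_le (M.K_isLB fun i => max 0 (T * M.wv (M.A c) i)).compact
  filter_upwards [hlf T (le_max_left _ _) N hN, hS.2 R 1 one_pos] with n h1 h2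
  have hm := (hS.1 n).1
  set f := fun y => M.ah (φ n y)
  set L := M.hLN f N
  have hL : Measurable L := (hLN_LM M (hCL _ (hφ n)) (hT.trans hN)).1
  set a := κ * T / (2 * C₁)
  have ha : 0 < a := by positivity
  have hsub : S n ∩ {x | M.Psi (M.A (L x c)) < M.Psi (M.A c) - κ} ⊆
      (S n ∩ {x | M.Phi (M.hr (φ n) c T J₀ x) < T * M.Psi (M.A c) - κ / 2 * T}) ∪
        ⋃ j : Fin (J₀ + 1), S n ∩ {x | a ≤ ‖M.hErr f L x (((j : ℝ) * T / J₀) • c)‖} := by
    rintro x ⟨hx, h3⟩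
    by_contra hn
    simp only [Set.mem_union, Set.mem_iUnion, Set.mem_inter_iff, Set.mem_ofPred_eq, hx, true_and,
      not_or, not_exists, not_lt, not_le] at hn h3
    have h4 := hpl (φ n) L x c hc T J₀ a (by linarith) ha.le fun j => (hn.2 j).le
    have h5 : C₁ * a = κ / 2 * T := by simp only [a]; field_simp
    nlinarith [hn.1]
  have e1 : volume (S n ∩ {x | M.Phi (M.hr (φ n) c T J₀ x) < T * M.Psi (M.A c) - κ / 2 * T}) ≤
      ENNReal.ofReal (δ / 2) * volume (S n) := by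
    refine (htz T (le_max_right _ _) J₀ le_rfl c hcu hc1 (φ n) (hφ n) (S n) hm).trans ?_
    have h3 : volume (S n * M.K fun i => max 0 (T * M.wv (M.A c) i)) ≤ 2 * volume (S n) := by
      refine (measure_mono (M.hc_mul_subset (R := R) (S n) hR)).trans
        ((measure_union_le _ _).trans ?_)
      rw [two_mul]
      exact add_le_add le_rfl (by simpa using h2)
    calc _ ≤ ENNReal.ofReal (δ / 4) * (2 * volume (S n)) := by gcongr
      _ = _ := by
        rw [← mul_assoc, ← ENNReal.ofReal_ofNat 2, ← ENNReal.ofReal_mul (by positivity)]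
        congr 2; ring
  have e2 : ∀ j : Fin (J₀ + 1),
      volume (S n ∩ {x | a ≤ ‖M.hErr f L x (((j : ℝ) * T / J₀) • c)‖}) ≤
        ENNReal.ofReal (δ / 2 / (J₀ + 1)) * volume (S n) := by
    intro j
    obtain ⟨t0, t1⟩ := hcpl1_t (by linarith : 0 ≤ T) J₀ j
    have h3 : M.ln (((j : ℝ) * T / J₀) • c) ≤ 2 * T := by
      have := M.hc_ln_smul hcu hc1 ((j : ℝ) * T / J₀)
      rw [abs_of_nonneg t0] at this
      linarith
    have h4 := M.hc_markov ((M.hErr_meas (hCL _ (hφ n)).1 hL).comp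
      (measurable_id.prodMk measurable_const)) ha (h1 _ h3) hm
    refine h4.trans (le_of_eq ?_)
    congr 2
    simp only [a]; field_simp; ring
  calc _ ≤ _ := measure_mono hsub
    _ ≤ _ := measure_union_le _ _
    _ ≤ ENNReal.ofReal (δ / 2) * volume (S n) +
        ∑ j : Fin (J₀ + 1), ENNReal.ofReal (δ / 2 / (J₀ + 1)) * volume (S n) := by
        gcongr
        exact (measure_iUnion_fintype_le _ _).trans (Finset.sum_le_sum fun j _ => e2 j)
    _ = _ := by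
        rw [Finset.sum_const, Finset.card_univ, Fintype.card_fin, nsmul_eq_mul, ← mul_assoc,
          ← ENNReal.ofReal_natCast, ← ENNReal.ofReal_mul (by positivity), ← add_mul,
          ← ENNReal.ofReal_add (by positivity) (by positivity)]
        congr 2
        push_cast; field_simp; ring

end Vale.Agent.P188.Geo
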