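import Vale.Agent.P188.H.Basic

/-! Part H: shifting integrals over almost invariant sets. -/

namespace Vale.Agent.P188.Geo
open scoped InnerProductSpace Pointwise
open MeasureTheory Filter Topology
variable (M : Geo)

theorem hc_shift {E : Type} [NormedAddCommGroup E] [NormedSpace ℝ E] (F : M.G → E)
    {S T : Set M.G} (hS : MeasurableSet S) (hT : MeasurableSet T) {R : ℝ} {g : M.G}
    (hg : M.ln g ≤ R) (hb : M.bd R S ⊆ T) (hF : IntegrableOn F (S ∪ T)) :
    ‖(∫ x in S, F (x * g)) - ∫ x in S, F x‖ₑ ≤ ∫⁻ x in T, ‖F x‖ₑ := by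
  have hR : M.ln 1 ≤ R := by
    rw [M.ln_one]
    exact (M.ln_nonneg g).trans hg
  have hg' : M.ln g⁻¹ ≤ R := by rwa [M.ln_inv]
  have hS1 : MeasurableSet ((fun y => y * g⁻¹) ⁻¹' S) := measurable_mul_const _ hS
  have h1 : ∀ y, y * g⁻¹ ∈ S → y ∉ S → y ∈ T := fun y a b =>
    hb ⟨⟨_, hg', a⟩, 1, hR, by rwa [mul_one]⟩
  have h2 : ∀ y, y * g⁻¹ ∉ S → y ∈ S → y ∈ T := fun y a b =>
    hb ⟨⟨1, hR, by rwa [mul_one]⟩, _, hg', a⟩
  have e := (measurePreserving_mul_right (volume : Measure M.G) g).setIntegral_preimage_emb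
    (measurableEmbedding_mulRight g) F ((fun y => y * g⁻¹) ⁻¹' S)
  have e1 : (fun y => y * g) ⁻¹' ((fun y => y * g⁻¹) ⁻¹' S) = S := by
    ext y
    simp
  rw [e1] at e
  have i1 : IntegrableOn F ((fun y => y * g⁻¹) ⁻¹' S) := hF.mono_set fun y hy => by
    by_cases a : y ∈ S
    · exact Or.inl a
    · exact Or.inr (h1 y hy a)
  have i2 : IntegrableOn F S := hF.mono_set Set.subset_union_left
  rw [e, ← integral_indicator hS1, ← integral_indicator hS,
    ← integral_sub (i1.integrable_indicator hS1) (i2.integrable_indicator hS),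
    ← lintegral_indicator hT]
  refine (enorm_integral_le_lintegral_enorm _).trans (lintegral_mono fun y => ?_)
  by_cases a : y * g⁻¹ ∈ S <;> by_cases b : y ∈ S
  · simp [a, b]
  · simp [a, b, h1 y a b]
  · simp [a, b, h2 y a b]
  · simp [a, b]

theorem hc_shift_avg {u : Filter ℕ} {S : ℕ → Set M.G} (hS : M.Fol u S) (F : ℕ → M.G → ℝ)
    (hF : ∀ n, Measurable (F n)) {B : ℝ} (hB : ∀ n x, |F n x| ≤ B) (g : M.G) :
    Tendsto (fun n => (⨍ x in S n, F n (x * g)) - ⨍ x in S n, F n x) u (𝓝 0) := by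
  have hB0 : 0 ≤ B := (abs_nonneg _).trans (hB 0 1)
  refine Metric.tendsto_nhds.2 fun ε hε => ?_
  have hθ : 0 < ε / (B + 1) := by positivity
  filter_upwards [hS.2 (M.ln g) _ hθ] with n hn
  obtain ⟨m, hT, h0⟩ := hS.1 n
  have hfin : volume (toMeasurable volume (M.bd (M.ln g) (S n))) ≠ ⊤ := by
    rw [measure_toMeasurable]
    exact ne_top_of_le_ne_top (ENNReal.mul_ne_top ENNReal.ofReal_ne_top hT) hn
  have hi : IntegrableOn (F n) (S n ∪ toMeasurable volume (M.bd (M.ln g) (S n))) :=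
    Measure.integrableOn_of_bounded (M := B) (measure_union_ne_top hT hfin)
      (hF n).aestronglyMeasurable (ae_of_all _ fun x => hB n x)
  have h1 := M.hc_shift (F n) m (measurableSet_toMeasurable _ _) le_rfl
    (subset_toMeasurable _ _) hi
  have h2 : ∫⁻ x in toMeasurable volume (M.bd (M.ln g) (S n)), ‖F n x‖ₑ ≤
      ENNReal.ofReal B * (ENNReal.ofReal (ε / (B + 1)) * volume (S n)) := by
    refine (lintegral_mono (g := fun _ => ENNReal.ofReal B) fun x => ?_).trans ?_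
    · rw [← ofReal_norm]
      exact ENNReal.ofReal_le_ofReal (hB n x)
    · rw [setLIntegral_const, measure_toMeasurable]
      gcongr
  have hv : 0 < volume.real (S n) := ENNReal.toReal_pos h0 hT
  have h3 := ENNReal.toReal_mono (ENNReal.mul_ne_top ENNReal.ofReal_ne_top
    (ENNReal.mul_ne_top ENNReal.ofReal_ne_top hT)) (h1.trans h2)
  rw [toReal_enorm, ENNReal.toReal_mul, ENNReal.toReal_mul, ENNReal.toReal_ofReal hB0,
    ENNReal.toReal_ofReal hθ.le] at h3
  rw [dist_zero_right, setAverage_eq, setAverage_eq, ← smul_sub, norm_smul, norm_inv,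
    Real.norm_of_nonneg hv.le, inv_mul_lt_iff₀ hv]
  refine h3.trans_lt ?_
  rw [← mul_assoc, mul_comm (volume.real (S n))]
  refine mul_lt_mul_of_pos_right ?_ hv
  rw [← mul_div_assoc, div_lt_iff₀ (by positivity)]
  nlinarith

theorem hc_l2l1 {E : Type} [NormedAddCommGroup E] [MeasurableSpace E] [OpensMeasurableSpace E]
    {F : M.G → E} (hF : Measurable F) {B : ℝ} (hB : ∀ x, ‖F x‖ ≤ B) {S : Set M.G}
    (h0 : volume S ≠ 0) (hT : volume S ≠ ⊤) {ε : ℝ} (hε : 0 < ε)
    (h : ⨍ x in S, ‖F x‖ ^ 2 ≤ ε ^ 2) :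
    ∫⁻ x in S, ‖F x‖ₑ ≤ ENNReal.ofReal ε * volume S := by
  have hv : 0 < volume.real S := ENNReal.toReal_pos h0 hT
  have i1 : IntegrableOn (fun x => ‖F x‖) S :=
    Measure.integrableOn_of_bounded (M := B) hT hF.norm.aestronglyMeasurable
      (ae_of_all _ fun x => by simpa using hB x)
  have i2 : IntegrableOn (fun x => ‖F x‖ ^ 2) S :=
    Measure.integrableOn_of_bounded (M := B ^ 2) hT (hF.norm.pow_const 2).aestronglyMeasurable
      (ae_of_all _ fun x => by
        rw [Real.norm_of_nonneg (sq_nonneg _)]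
        exact pow_le_pow_left₀ (norm_nonneg _) (hB x) 2)
  have i3 : IntegrableOn (fun _ => ε / 2) S (volume : Measure M.G) := integrableOn_const hT
  rw [setAverage_eq, smul_eq_mul, inv_mul_le_iff₀ hv] at h
  have h1 : ∫ x in S, ‖F x‖ ≤ ∫ x in S, (ε / 2 + ‖F x‖ ^ 2 / (2 * ε)) := by
    refine integral_mono i1 (i3.add (i2.div_const _)) fun x => ?_
    have : ‖F x‖ - ε / 2 ≤ ‖F x‖ ^ 2 / (2 * ε) := by
      rw [le_div_iff₀ (by positivity)]
      nlinarith [sq_nonneg (‖F x‖ - ε)]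
    beta_reduce
    linarith
  rw [integral_add i3 (i2.div_const _), setIntegral_const, integral_div, smul_eq_mul] at h1
  have h2 : (∫ x in S, ‖F x‖ ^ 2) / (2 * ε) ≤ volume.real S * (ε / 2) := by
    rw [div_le_iff₀ (by positivity)]
    nlinarith
  simp only [← ofReal_norm]
  rw [← ofReal_integral_eq_lintegral_ofReal i1 (ae_of_all _ fun x => norm_nonneg _),
    ← ofReal_measureReal hT, ← ENNReal.ofReal_mul hε.le]
  exact ENNReal.ofReal_le_ofReal (by linarith)

end Vale.Agent.P188.Geo
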