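import Vale.Agent.P188.H.Basic
import Vale.Agent.P188.H.Nil2

/-! Part H: sublinearity on the graded balls of u0. -/

namespace Vale.Agent.P188.Geo
open scoped InnerProductSpace Pointwise
variable (M : Geo) {H : Type} [NormedAddCommGroup H] [InnerProductSpace ℝ H] [CompleteSpace H]

theorem hcsubz_comm {j : ℕ} (g : M.G) {z : M.G} (hz : z ∈ M.fil j) :
    M.st (M.st (M.st g z) (-g)) (-z) ∈ M.fil (j + 1) := by
  have up : ∀ {y}, y ∈ M.fil (j + 1) → y ∈ M.fil j := fun hy => M.fil_anti (Nat.le_succ j) hy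
  have h0 : ∀ y : M.G, y - y ∈ M.fil j := fun y => by rw [sub_self]; exact zero_mem _
  have h1 : M.st g z - g - z ∈ M.fil (j + 1) := by
    have := M.st_fil (x := g) (y := z) (x' := g) (y' := 0) (h0 g) (by rwa [sub_zero])
    rwa [st_zero, sub_self, sub_zero, sub_zero] at this
  have h2 : M.st g z - g ∈ M.fil j := by
    have := add_mem (up h1) hz
    rwa [sub_add_cancel] at this
  have h3 : M.st (M.st g z) (-g) - z ∈ M.fil (j + 1) := by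
    have := add_mem (M.st_fil (y := -g) (y' := -g) h2 (h0 _)) h1
    rw [st_neg] at this
    convert this using 1
    abel
  have := add_mem (M.st_fil (y := -z) (y' := -z) (up h3) (h0 _)) h3
  rw [st_neg] at this
  convert this using 1
  abel

/-- the subgroup `u0 ∩ fil j` -/
def hcsubz_N (j : ℕ) : Subgroup M.G where
  carrier := {x | x ∈ M.u0 ∧ x ∈ M.fil j}
  mul_mem' := fun {x y} hx hy => ⟨M.mul_mem_u0 hx.1 hy.1, by
    rw [M.mul_eq_st (Or.inr hy.1)]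
    exact M.st_mem _ (fun x _ y hy => M.fil_anti (Nat.le_succ j) (M.B_fil x hy)) hx.2 hy.2⟩
  one_mem' := ⟨zero_mem _, zero_mem _⟩
  inv_mem' := fun {x} hx => ⟨M.inv_mem_u0 hx.1, by
    rw [M.inv_eq_neg (Or.inr hx.1)]; exact neg_mem hx.2⟩

theorem hc_subgroups : ∃ N : ℕ → Subgroup M.G, (∀ x, x ∈ N 0 ↔ x ∈ M.u0) ∧ Antitone N ∧
    N M.c = ⊥ ∧ ∀ j, ∀ g ∈ N 0, ∀ z ∈ N j, g * z * g⁻¹ * z⁻¹ ∈ N (j + 1) := by
  refine ⟨M.hcsubz_N, fun x => ⟨fun h => h.1, fun h => ⟨h, M.fil_zero x⟩⟩,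
    fun i j hij x hx => ⟨hx.1, M.fil_anti hij hx.2⟩, ?_, fun j g hg z hz => ?_⟩
  · refine (Subgroup.eq_bot_iff_forall _).2 fun x hx => ?_
    have := hx.2
    rw [M.fil_c] at this
    exact (Submodule.mem_bot ℝ).1 this
  · have hg' := M.inv_mem_u0 hg.1
    have hz' := M.inv_mem_u0 hz.1
    refine ⟨M.mul_mem_u0 (M.mul_mem_u0 (M.mul_mem_u0 hg.1 hz.1) hg') hz', ?_⟩
    rw [M.mul_eq_st (Or.inr hz'), M.mul_eq_st (Or.inr hg'), M.mul_eq_st (Or.inr hz.1),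
      M.inv_eq_neg (Or.inr hg.1), M.inv_eq_neg (Or.inr hz.1)]
    exact M.hcsubz_comm g hz.2

theorem hcsubz_list {ν : M.G → ℝ} (h1 : ν 1 ≤ 0)
    (hν : ∀ g ∈ M.u0, ∀ h ∈ M.u0, ν (g * h) ≤ ν g + ν h) {R : ℝ} (l : List M.G)
    (hl : ∀ x ∈ l, x ∈ M.u0 ∧ ν x ≤ R) : l.prod ∈ M.u0 ∧ ν l.prod ≤ l.length * R := by
  induction l with
  | nil => exact ⟨zero_mem _, by simpa using h1⟩
  | cons x l ih =>
    obtain ⟨a1, a2⟩ := ih fun y hy => hl y (List.mem_cons_of_mem _ hy)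
    obtain ⟨b1, b2⟩ := hl x List.mem_cons_self
    rw [List.prod_cons, List.length_cons]
    refine ⟨M.mul_mem_u0 b1 a1, (hν _ b1 _ a1).trans ?_⟩
    push_cast
    linarith

theorem hcsubz_line {ν : M.G → ℝ} (h1 : ν 1 ≤ 0)
    (hν : ∀ g ∈ M.u0, ∀ h ∈ M.u0, ν (g * h) ≤ ν g + ν h) {ε E : ℝ} (hε : 0 ≤ ε)
    (hE : ∀ x ∈ M.u0, ‖x‖ ≤ 1 → ν x ≤ E) {y : M.G} (hy : y ∈ M.u0) (hn : ‖y‖ ≤ 1) (hν' : ν y ≤ ε)
    {t : ℝ} (ht : 0 ≤ t) : ν (t • y) ≤ ε * t + E := by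
  have a := M.hcsubz_list h1 hν (R := ε) (List.replicate ⌊t⌋₊ y) fun x hx => by
    rw [List.eq_of_mem_replicate hx]; exact ⟨hy, hν'⟩
  rw [List.prod_replicate, List.length_replicate, M.pow_eq_smul (Or.inr hy)] at a
  have f1 := Nat.floor_le ht
  have f2 := Nat.lt_floor_add_one t
  have e : t • y = ((⌊t⌋₊ : ℝ) • y) * ((t - ⌊t⌋₊) • y) := by
    rw [M.smul_mul_smul (Or.inr hy), add_sub_cancel]
  have b := hE _ (M.u0.smul_mem (t - ⌊t⌋₊) hy) (by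
    rw [norm_smul, Real.norm_of_nonneg (by linarith)]
    exact mul_le_one₀ (by linarith) (norm_nonneg _) hn)
  rw [e]
  refine (hν _ a.1 _ (M.u0.smul_mem _ hy)).trans ?_
  nlinarith [a.2]

theorem hcsubz_Z : ∃ (N : ℕ) (C' : ℝ), 1 ≤ C' ∧ ∀ ν : M.G → ℝ, ν 1 ≤ 0 →
    (∀ g ∈ M.u0, ∀ h ∈ M.u0, ν (g * h) ≤ ν g + ν h) → ∀ ρ R : ℝ, 0 ≤ R →
    (∀ i, M.wt i = 0 → ∀ u : ℝ, |u| ≤ C' → ν (u • ρ • M.X i) ≤ R) → ∀ x ∈ M.Z ρ, ν x ≤ N * R := by
  classical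
  obtain ⟨N, C', hC', hb⟩ := M.bounded_gen M.d 1 zero_le_one
  refine ⟨N, C', hC', fun ν h1 hν ρ R hR hP x hx => ?_⟩
  have he : (((Finset.univ.filter fun i => M.wt i = 0).image fun i => ρ • M.X i : Finset M.G) :
      Set M.G) = {y | ∃ i, M.wt i = 0 ∧ y = ρ • M.X i} := by
    ext y
    simp [eq_comm]
  obtain ⟨l, a1, a2, a3⟩ := hb ((Finset.univ.filter fun i => M.wt i = 0).image fun i => ρ • M.X i)
    (Finset.card_image_le.trans ((Finset.card_filter_le _ _).trans (by simp)))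
    (he ▸ Tame.mono M (M.Z_tame ρ) (M.subset_gen _)) x (by rw [one_smul, he]; exact hx)
  have a4 := M.hcsubz_list h1 hν (R := R) (l.map fun p => p.1 • p.2) fun y hy => by
    obtain ⟨p, hp, rfl⟩ := List.mem_map.1 hy
    have h5 : p.2 ∈ {y | ∃ i, M.wt i = 0 ∧ y = ρ • M.X i} := he ▸ (a2 p hp).2
    obtain ⟨i, hi, h6⟩ := h5
    have h2 : M.X i ∈ M.u0 := Submodule.subset_span ⟨i, hi, rfl⟩
    rw [h6]
    exact ⟨M.u0.smul_mem _ (M.u0.smul_mem _ h2), hP i hi _ (a2 p hp).1⟩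
  rw [a3]
  refine a4.2.trans ?_
  rw [List.length_map]
  exact mul_le_mul_of_nonneg_right (by exact_mod_cast a1) hR

theorem hc_subZ (π : M.G →* (H ≃ₗᵢ[ℝ] H)) (b : M.G → H)
    (hb : ∀ g h, b (g * h) = b g + π g (b h)) {D : ℝ} (hD : ∀ g, ‖b g‖ ≤ D * (M.ln g + 1)) :
    ∃ ℓ : M.G → H, (∀ g ∈ M.u0, ∀ h ∈ M.u0, ℓ (g * h) = ℓ g + ℓ h) ∧
      (∀ g ∈ M.u0, ∀ h, π g (ℓ h) = ℓ h) ∧ (∀ g, ‖ℓ g‖ ≤ ‖b g‖) ∧
      ∀ η : ℝ, 0 < η → ∃ B : ℝ, ∀ ρ : ℝ, 0 ≤ ρ → ∀ ζ ∈ M.Z ρ, ‖b ζ - ℓ ζ‖ ≤ η * ρ + B := by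
  classical
  obtain ⟨N, hN0, hN1, hN2, hN3⟩ := M.hc_subgroups
  obtain ⟨ℓ, l1, l2, l3, l4⟩ := hc_nil π b hb N M.c hN1 hN2 hN3
  simp only [hN0] at l1 l2 l4
  refine ⟨ℓ, l1, l2, l3, fun η hη => ?_⟩
  obtain ⟨n, C', hC', hZ⟩ := M.hcsubz_Z
  have hD0 : 0 ≤ D := by
    have := (norm_nonneg _).trans (hD 1)
    rwa [M.ln_one, zero_add, mul_one] at this
  have hb1 : b 1 = 0 := by
    have := hb 1 1
    rw [mul_one, map_one] at this
    simpa using this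
  have hl1 : ℓ 1 = 0 := by
    have := l3 1
    rwa [hb1, norm_zero, norm_le_zero_iff] at this
  have hX : ∀ i, M.wt i = 0 → M.X i ∈ M.u0 := fun i hi => Submodule.subset_span ⟨i, hi, rfl⟩
  have hq : 0 < (n : ℝ) * C' + 1 := by positivity
  obtain ⟨ε, hε, hεη⟩ : ∃ ε : ℝ, 0 < ε ∧ ε * (n * C' + 1) = η :=
    ⟨η / (n * C' + 1), div_pos hη hq, div_mul_cancel₀ _ hq.ne'⟩
  obtain ⟨v, v1, v2⟩ := l4 ((Finset.univ.filter fun i => M.wt i = 0).image M.X ∪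
    (Finset.univ.filter fun i => M.wt i = 0).image fun i => -M.X i) ε hε (by
      intro t ht
      simp only [Finset.mem_union, Finset.mem_image, Finset.mem_filter, Finset.mem_univ,
        true_and] at ht
      rcases ht with ⟨i, hi, rfl⟩ | ⟨i, hi, rfl⟩
      · exact hX i hi
      · exact neg_mem (hX i hi))
  let ν : M.G → ℝ := fun g => ‖b g - ℓ g - (v - π g v)‖
  have n1 : ν 1 ≤ 0 := by simp [ν, hb1, hl1]
  have n2 : ∀ g ∈ M.u0, ∀ h ∈ M.u0, ν (g * h) ≤ ν g + ν h := by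
    intro g hg h hh
    have e : b (g * h) - ℓ (g * h) - (v - π (g * h) v) =
        (b g - ℓ g - (v - π g v)) + π g (b h - ℓ h - (v - π h v)) := by
      rw [hb, l1 g hg h hh, map_mul, map_sub, map_sub, map_sub, l2 g hg h]
      simp only [LinearIsometryEquiv.coe_mul, Function.comp_apply]
      abel
    show ‖_‖ ≤ ‖_‖ + ‖_‖
    rw [e]
    exact (norm_add_le _ _).trans (by rw [LinearIsometryEquiv.norm_map])
  have n3 : ∀ x ∈ M.u0, ‖x‖ ≤ 1 → ν x ≤ M.c * (D * 2) := fun x hx h1 =>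
    (v1 x hx).trans (mul_le_mul_of_nonneg_left ((hD x).trans
      (mul_le_mul_of_nonneg_left (by linarith [M.ln_le_one h1]) hD0)) (Nat.cast_nonneg _))
  have n4 : ∀ i, M.wt i = 0 → ∀ t : ℝ, ν (t • M.X i) ≤ ε * |t| + M.c * (D * 2) := by
    intro i hi t
    rcases le_total 0 t with ht | ht
    · rw [abs_of_nonneg ht]
      exact M.hcsubz_line n1 n2 hε.le n3 (hX i hi) (M.len_norm_X i).le
        (v2 _ (Finset.mem_union_left _ (Finset.mem_image_of_mem _ (by simpa using hi)))) ht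
    · have := M.hcsubz_line n1 n2 hε.le n3 (neg_mem (hX i hi))
        (by rw [norm_neg]; exact (M.len_norm_X i).le)
        (v2 _ (Finset.mem_union_right _
          (Finset.mem_image_of_mem (fun i => -M.X i) (by simpa using hi)))) (neg_nonneg.2 ht)
      rwa [smul_neg, neg_smul, neg_neg, ← abs_of_nonpos ht] at this
  refine ⟨n * (M.c * (D * 2)) + 2 * ‖v‖, fun ρ hρ ζ hζ => ?_⟩
  have a := hZ ν n1 n2 ρ (ε * (C' * ρ) + M.c * (D * 2)) (by positivity) (fun i hi u hu => by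
    rw [smul_smul]
    refine (n4 i hi _).trans ?_
    rw [abs_mul, abs_of_nonneg hρ]
    have := mul_le_mul_of_nonneg_left (mul_le_mul_of_nonneg_right hu hρ) hε.le
    linarith) ζ hζ
  have e : b ζ - ℓ ζ = (b ζ - ℓ ζ - (v - π ζ v)) + (v - π ζ v) := by abel
  have c1 : ‖v - π ζ v‖ ≤ 2 * ‖v‖ := (norm_sub_le _ _).trans (by
    rw [LinearIsometryEquiv.norm_map]; linarith)
  have c2 : 0 ≤ ε * ρ := by positivity
  rw [e, ← hεη]
  refine (norm_add_le _ _).trans ?_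
  have a' : ‖b ζ - ℓ ζ - (v - π ζ v)‖ ≤ n * (ε * (C' * ρ) + M.c * (D * 2)) := a
  nlinarith

end Vale.Agent.P188.Geo
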