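import Vale.Agent.P188.H.Shift

/-! Part H: the ultralimit kernel. -/

namespace Vale.Agent.P188.Geo
open scoped InnerProductSpace Pointwise
open MeasureTheory Filter Topology
variable (M : Geo)

theorem hcul1_bd {D : ℝ} {f : M.G → M.G} (hf : M.hCL D f) (g h x : M.G) :
    |⟪f (x * g) - f x, f (x * h) - f x⟫_ℝ| ≤ D * (M.ln g + 1) * (D * (M.ln h + 1)) :=
  (abs_real_inner_le_norm _ _).trans (mul_le_mul (hf.2 x g) (hf.2 x h) (norm_nonneg _)
    ((norm_nonneg _).trans (hf.2 x g)))

theorem hcul1_meas {D : ℝ} {f : M.G → M.G} (hf : M.hCL D f) (g h : M.G) :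
    Measurable fun x => ⟪f (x * g) - f x, f (x * h) - f x⟫_ℝ :=
  ((hf.1.comp (measurable_mul_const g)).sub hf.1).inner
    ((hf.1.comp (measurable_mul_const h)).sub hf.1)

theorem hcul1_int {D : ℝ} {f : M.G → M.G} (hf : M.hCL D f) (ν : Measure M.G) [IsFiniteMeasure ν]
    (g h : M.G) : Integrable (fun x => ⟪f (x * g) - f x, f (x * h) - f x⟫_ℝ) ν :=
  Integrable.of_bound (M.hcul1_meas hf g h).aestronglyMeasurable _
    (Eventually.of_forall fun x => M.hcul1_bd hf g h x)

theorem hc_kernel (u : Ultrafilter ℕ) {D : ℝ} (f : ℕ → M.G → M.G) (hf : ∀ n, M.hCL D (f n))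
    (S : ℕ → Set M.G) (hS : M.Fol (u : Filter ℕ) S) : ∃ κ : M.G → M.G → ℝ,
    (∀ g h, Tendsto (fun n => ⨍ x in S n, ⟪f n (x * g) - f n x, f n (x * h) - f n x⟫_ℝ)
      (u : Filter ℕ) (𝓝 (κ g h))) ∧
    (∀ g h h', κ (g * h) (g * h') - κ (g * h) g - κ g (g * h') + κ g g = κ h h') ∧
    ∀ (ι : Type) (I : Finset ι) (t : ι → ℝ) (g : ι → M.G),
      Tendsto (fun n => ⨍ x in S n, ‖∑ k ∈ I, t k • (f n (x * g k) - f n x)‖ ^ 2) (u : Filter ℕ)
        (𝓝 (∑ k ∈ I, ∑ l ∈ I, t k * t l * κ (g k) (g l))) := by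
  let ν : ℕ → Measure M.G := fun n => ProbabilityTheory.cond volume (S n)
  have hν : ∀ n, IsProbabilityMeasure (ν n) := fun n =>
    ProbabilityTheory.cond_isProbabilityMeasure_of_finite (hS.1 n).2.2 (hS.1 n).2.1
  have hav : ∀ n (F : M.G → ℝ), ⨍ x in S n, F x = ∫ x, F x ∂(ν n) := fun n F =>
    setAverage_eq' _ _ _
  have hex : ∀ g h, ∃ k : ℝ, Tendsto
      (fun n => ⨍ x in S n, ⟪f n (x * g) - f n x, f n (x * h) - f n x⟫_ℝ) (u : Filter ℕ) (𝓝 k) := by
    intro g h
    set B := D * (M.ln g + 1) * (D * (M.ln h + 1))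
    obtain ⟨k, -, hk⟩ := (isCompact_Icc (a := -B) (b := B)).ultrafilter_le_nhds
      (u.map fun n => ⨍ x in S n, ⟪f n (x * g) - f n x, f n (x * h) - f n x⟫_ℝ) (by
        rw [Ultrafilter.coe_map, le_principal_iff, mem_map]
        refine Eventually.of_forall fun n => abs_le.1 ?_
        have := hν n
        have := norm_integral_le_of_norm_le_const (μ := ν n) (C := B)
          (f := fun x => ⟪f n (x * g) - f n x, f n (x * h) - f n x⟫_ℝ)
          (Eventually.of_forall fun x => M.hcul1_bd (hf n) g h x)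
        rw [probReal_univ, mul_one] at this
        show |⨍ x in S n, _| ≤ B
        rw [hav]
        exact this)
    exact ⟨k, hk⟩
  choose κ hκ using hex
  refine ⟨κ, hκ, fun g h h' => ?_, fun ι I t g => ?_⟩
  · have h1 := (((hκ (g * h) (g * h')).sub (hκ (g * h) g)).sub (hκ g (g * h'))).add (hκ g g)
    have h2 := (M.hc_shift_avg hS (fun n x => ⟪f n (x * h) - f n x, f n (x * h') - f n x⟫_ℝ)
      (fun n => M.hcul1_meas (hf n) h h') (fun n x => M.hcul1_bd (hf n) h h' x) g).add (hκ h h')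
    rw [zero_add] at h2
    refine tendsto_nhds_unique h1 (h2.congr fun n => ?_)
    have := hν n
    have i1 := M.hcul1_int (hf n) (ν n)
    rw [sub_add_cancel]
    simp only [hav]
    rw [← integral_sub' (i1 _ _) (i1 _ _), ← integral_sub' ((i1 _ _).sub (i1 _ _)) (i1 _ _),
      ← integral_add' (((i1 _ _).sub (i1 _ _)).sub (i1 _ _)) (i1 _ _)]
    refine integral_congr_ae (Eventually.of_forall fun x => ?_)
    simp only [mul_assoc, inner_sub_left, inner_sub_right, Pi.sub_apply, Pi.add_apply]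
    ring
  · refine (tendsto_finsetSum I fun k _ => tendsto_finsetSum I fun l _ =>
      (hκ (g k) (g l)).const_mul (t k * t l)).congr fun n => ?_
    have := hν n
    have i1 := M.hcul1_int (hf n) (ν n)
    simp only [hav, ← integral_const_mul]
    rw [Finset.sum_congr rfl fun k _ =>
      (integral_finsetSum I fun l _ => (i1 (g k) (g l)).const_mul (t k * t l)).symm,
      ← integral_finsetSum I fun k _ =>
        integrable_finsetSum I fun l _ => (i1 (g k) (g l)).const_mul (t k * t l)]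
    refine integral_congr_ae (Eventually.of_forall fun x => ?_)
    simp only [← real_inner_self_eq_norm_sq, sum_inner, inner_sum, real_inner_smul_left,
      real_inner_smul_right, mul_assoc]
    exact Finset.sum_congr rfl fun k _ => Finset.sum_congr rfl fun l _ => by rw [real_inner_comm]

end Vale.Agent.P188.Geo
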