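import Vale.Agent.P188.H.UL1

/-! Part H: the ultralimit cocycle. -/

namespace Vale.Agent.P188.Geo
open scoped InnerProductSpace Pointwise
open MeasureTheory Filter Topology
variable (M : Geo)

theorem hcul2_avg {S : Set M.G} (h0 : volume S ≠ 0) (hT : volume S ≠ ⊤) {F : M.G → ℝ} {c : ℝ}
    (h : ∀ x, ‖F x‖ ≤ c) : ⨍ x in S, F x ≤ c := by
  have h1 := norm_setIntegral_le_of_norm_le_const (μ := volume) hT.lt_top fun x (_ : x ∈ S) => h x
  have h2 : 0 < volume.real S := ENNReal.toReal_pos h0 hT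
  rw [setAverage_eq, smul_eq_mul, inv_mul_le_iff₀ h2, mul_comm]
  exact (le_abs_self _).trans h1

theorem hc_ul (u : Ultrafilter ℕ) {D : ℝ} (f : ℕ → M.G → M.G) (hf : ∀ n, M.hCL D (f n))
    (S : ℕ → Set M.G) (hS : M.Fol (u : Filter ℕ) S) :
    ∃ (H : Type) (_ : NormedAddCommGroup H) (_ : InnerProductSpace ℝ H) (_ : CompleteSpace H)
      (π : M.G →* (H ≃ₗᵢ[ℝ] H)) (b : M.G → H), (∀ g h, b (g * h) = b g + π g (b h)) ∧
      (∀ g, ‖b g‖ ≤ D * (M.ln g + 1)) ∧
      ∀ (ι : Type) (I : Finset ι) (t : ι → ℝ) (g : ι → M.G) (ε : ℝ),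
        ‖∑ k ∈ I, t k • b (g k)‖ < ε → ∀ᶠ n in (u : Filter ℕ),
          ∫⁻ x in S n, ‖∑ k ∈ I, t k • (f n (x * g k) - f n x)‖ₑ ≤
            ENNReal.ofReal ε * volume (S n) := by
  obtain ⟨κ, k1, k2, k3⟩ := M.hc_kernel u f hf S hS
  obtain ⟨H, i1, i2, i3, π, b, hb, hκ, -⟩ := exists_gns κ
    (fun g h => tendsto_nhds_unique (k1 g h) (by simpa only [real_inner_comm] using k1 h g))
    (fun I t => ge_of_tendsto' (k3 M.G I t id) fun n =>
      integral_nonneg fun _ => sq_nonneg _)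
    (tendsto_nhds_unique (k1 1 1) (by simp)) k2
  have hD := (hf 0).nonneg M
  refine ⟨H, i1, i2, i3, π, b, hb, fun g => ?_, fun ι I t g ε hε => ?_⟩
  · have h0 : 0 ≤ D * (M.ln g + 1) := by have := M.ln_nonneg g; positivity
    refine abs_le_of_sq_le_sq' ?_ h0 |>.2
    rw [← real_inner_self_eq_norm_sq, hκ]
    refine le_of_tendsto' (k1 g g) fun n => M.hcul2_avg (hS.1 n).2.2 (hS.1 n).2.1 fun x => ?_
    rw [real_inner_self_eq_norm_sq, Real.norm_of_nonneg (sq_nonneg _)]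
    exact pow_le_pow_left₀ (norm_nonneg _) ((hf n).2 x g) 2
  · have h0 : 0 < ε := (norm_nonneg _).trans_lt hε
    have h1 : ∑ k ∈ I, ∑ l ∈ I, t k * t l * κ (g k) (g l) = ‖∑ k ∈ I, t k • b (g k)‖ ^ 2 := by
      rw [← real_inner_self_eq_norm_sq, sum_inner]
      refine Finset.sum_congr rfl fun k _ => ?_
      rw [inner_sum]
      refine Finset.sum_congr rfl fun l _ => ?_
      rw [real_inner_smul_left, real_inner_smul_right, hκ, mul_assoc]
    have h2 := (k3 ι I t g).eventually_lt_const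
      (h1.trans_lt (pow_lt_pow_left₀ hε (norm_nonneg _) two_ne_zero))
    filter_upwards [h2] with n hn
    have hm : ∀ k, Measurable fun x => t k • (f n (x * g k) - f n x) := fun k =>
      Measurable.const_smul (((hf n).1.comp (measurable_mul_const (g k))).sub (hf n).1) (t k)
    refine M.hc_l2l1 (F := fun x => ∑ k ∈ I, t k • (f n (x * g k) - f n x))
      (B := ∑ k ∈ I, |t k| * (D * (M.ln (g k) + 1))) (Finset.measurable_sum I fun k _ => hm k)
      (fun x => ?_) (hS.1 n).2.2 (hS.1 n).2.1 h0 hn.le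
    refine (norm_sum_le _ _).trans (Finset.sum_le_sum fun k _ => ?_)
    rw [norm_smul, Real.norm_eq_abs]
    exact mul_le_mul_of_nonneg_left ((hf n).2 x _) (abs_nonneg _)

end Vale.Agent.P188.Geo
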